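import Claimed.Agent.R280.Gauss.Val
import Claimed.Agent.R280.Tw.Red

/-!
# Row 280, Gauss package GA2 `Delta`: the Gauss valuation of `XX1 = L1(xt,yt)` is invariant under the twisting automorphism `δ`

PLAN.
* `redCurve1`: `T.red_W`, `T.ext1`, `T.rext1` (`baseChange` maps the coefficients by `algebraMap`).
* `delta_xy`: let `A =` valuation ring of `g.v1`, residue map `g.r1.toHom` onto `ES`.  In `Wt(XX1)`: the generic point `G = (xt,yt)` reduces to `(x0,y0)` (`GaussVal.res_x/y`), the image of `Q`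
  reduces to the image of `Qb` (`T.red_Q`, `GaussVal.ext/rext`).  `RedPtA.add` (Ell8, ARBITRARY valuation ring, this covers also `Q ≠ O`, `Qb = O`): `G + Q` reduces to `(x0,y0) + Qb`.
  `IsTransBy` says `(δ xt, δ yt) = G + Q` (definition of `+` in Mathlib: `xt ≠ a` since `xt` is transcendental, slope `(yt - b)/(xt - a)`), same downstairs; the sum downstairs is the affine point
  `(δb x0, δb y0)`, so by the last clause of `RedPtA`: `δ xt, δ yt` are integral with these residues.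
* `delta`: for `f = A(xt) + B(xt) yt` of norm `≤ 1`: `δ f = A^σ(δ xt) + B^σ(δ xt) δ yt` is integral with residue `δb (res f)` (`σ_val`, `σ_res`, `res_poly`); if the norm is `1` the residue is `≠ 0`;
  scaling: `v1 (δ f) = v1 f` on the coordinate ring, then on fractions (`IsWFF.repr`); residues of fractions: `res (f/g) = res f / res g` for `v1 g = 1`.
~900 lines.   Owner of the statements: helper66.
-/

set_option autoImplicit false

namespace Claimed.Agent.R280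

open WithZero WeierstrassCurve Polynomial
open scoped Classical

section GA2gen

variable {L L' F F' : Type} [Field L] [Field L'] [Algebra L L'] [Field F] [Field F'] [Algebra F F']
  {v' : Valuation L' ℚᵐ⁰} {v : Valuation L ℚᵐ⁰} {r' : ResMap v' F'} {r : ResMap v F}

theorem ga2_redCurve_ext {Wt : WeierstrassCurve L} {W0 : WeierstrassCurve F}
    (hW : RedCurve v r Wt W0) (he : ValExt v' v) (hr : ResExt r' r) :
    RedCurve v' r' (Wt.baseChange L') (W0.baseChange F') := by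
  obtain ⟨⟨h1, e1⟩, ⟨h2, e2⟩, ⟨h3, e3⟩, ⟨h4, e4⟩, ⟨h6, e6⟩⟩ := hW
  refine ⟨⟨?_, ?_⟩, ⟨?_, ?_⟩, ⟨?_, ?_⟩, ⟨?_, ?_⟩, ⟨?_, ?_⟩⟩
  · show v' (algebraMap L L' Wt.a₁) ≤ 1
    rw [he]; exact h1
  · show r'.res (algebraMap L L' Wt.a₁) = algebraMap F F' W0.a₁
    rw [hr _ h1, e1]
  · show v' (algebraMap L L' Wt.a₂) ≤ 1
    rw [he]; exact h2
  · show r'.res (algebraMap L L' Wt.a₂) = algebraMap F F' W0.a₂
    rw [hr _ h2, e2]
  · show v' (algebraMap L L' Wt.a₃) ≤ 1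
    rw [he]; exact h3
  · show r'.res (algebraMap L L' Wt.a₃) = algebraMap F F' W0.a₃
    rw [hr _ h3, e3]
  · show v' (algebraMap L L' Wt.a₄) ≤ 1
    rw [he]; exact h4
  · show r'.res (algebraMap L L' Wt.a₄) = algebraMap F F' W0.a₄
    rw [hr _ h4, e4]
  · show v' (algebraMap L L' Wt.a₆) ≤ 1
    rw [he]; exact h6
  · show r'.res (algebraMap L L' Wt.a₆) = algebraMap F F' W0.a₆
    rw [hr _ h6, e6]

end GA2gen

section GA2tower

variable {L L1 M F S M0 : Type} [Field L] [Field L1] [Field M] [Field F] [Field S] [Field M0]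
  [Algebra L L1] [Algebra L1 M] [Algebra L M] [IsScalarTower L L1 M]
  [Algebra F S] [Algebra S M0] [Algebra F M0] [IsScalarTower F S M0]
  {vL : Valuation L ℚᵐ⁰} {vL1 : Valuation L1 ℚᵐ⁰} {v1 : Valuation M ℚᵐ⁰}
  {rL : ResMap vL F} {rL1 : ResMap vL1 S} {r1 : ResMap v1 M0}

theorem ga2_valExt_trans (h1 : ValExt v1 vL1) (h2 : ValExt vL1 vL) : ValExt v1 vL := fun a => by
  rw [IsScalarTower.algebraMap_apply L L1 M, h1, h2]

theorem ga2_resExt_trans (h2 : ValExt vL1 vL) (e1 : ResExt r1 rL1) (e2 : ResExt rL1 rL) :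
    ResExt r1 rL := fun a ha => by
  rw [IsScalarTower.algebraMap_apply L L1 M, e1 _ (by rw [h2]; exact ha), e2 _ ha,
    ← IsScalarTower.algebraMap_apply F S M0]

theorem ga2_redPt_map {Wt : WeierstrassCurve L} {W0 : WeierstrassCurve F}
    (h1 : ValExt v1 vL1) (e1 : ResExt r1 rL1)
    {Q : (Wt.baseChange L1).toAffine.Point} {Qb : (W0.baseChange S).toAffine.Point}
    (h : RedPt vL1 rL1 Q Qb) :
    RedPt v1 r1 (Affine.Point.map (W' := Wt.toAffine) (IsScalarTower.toAlgHom L L1 M) Q)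
      (Affine.Point.map (W' := W0.toAffine) (IsScalarTower.toAlgHom F S M0) Qb) := by
  rcases Q with _ | ⟨a, b, hab⟩ <;> rcases Qb with _ | ⟨a', b', hab'⟩
  · trivial
  · exact h.elim
  · show 1 < v1 (algebraMap L1 M a)
    rw [h1]; exact h
  · obtain ⟨ha, hb, rfl, rfl⟩ := h
    refine ⟨?_, ?_, ?_, ?_⟩
    · show v1 (algebraMap L1 M a) ≤ 1
      rw [h1]; exact ha
    · show v1 (algebraMap L1 M b) ≤ 1
      rw [h1]; exact hb
    · exact e1 a ha
    · exact e1 b hb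

end GA2tower

section GA2poly

variable {K k M M0 : Type} [Field K] [Field k] [Field M] [Field M0] [Algebra K M] [Algebra k M0]
  {v : Valuation K ℚᵐ⁰} {r : ResMap v k} {v1 : Valuation M ℚᵐ⁰} {r1 : ResMap v1 M0}

/-- evaluation at an integral element of an extension commutes with reduction -/
theorem ga2_res_aeval (he : ValExt v1 v) (hr : ResExt r1 r) {A : K[X]} (hA : gNorm v A ≤ 1) {u : M}
    (hu : v1 u ≤ 1) :
    v1 (aeval u A) ≤ 1 ∧ r1.res (aeval u A) = aeval (r1.res u) (redPoly r A) := by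
  have hc : ∀ n, v (A.coeff n) ≤ 1 := fun n => (coeff_le_gNorm v A n).trans hA
  have h1 : gNorm v1 (A.map (algebraMap K M)) ≤ 1 := by
    rw [gNorm_le_iff]
    intro n
    rw [coeff_map, he]
    exact hc n
  have h2 : redPoly r1 (A.map (algebraMap K M)) = (redPoly r A).map (algebraMap k M0) := by
    ext n
    rw [coeff_redPoly, coeff_map, coeff_map, coeff_redPoly, hr _ (hc n)]
  have h3 := res_eval r1 h1 hu
  rw [h2, eval_map_algebraMap, eval_map_algebraMap] at h3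
  exact h3

theorem ga2_gNorm_map {σ : K →+* K} (hσ : ∀ a, v (σ a) = v a) (A : K[X]) :
    gNorm v (A.map σ) = gNorm v A := by
  refine le_antisymm ?_ ?_
  · rw [gNorm_le_iff]
    intro n
    rw [coeff_map, hσ]
    exact coeff_le_gNorm v A n
  · rw [gNorm_le_iff]
    intro n
    rw [← hσ, ← coeff_map]
    exact coeff_le_gNorm v _ n

theorem ga2_redPoly_map {σ : K →+* K} {σb : k →+* k}
    (hσr : ∀ a, v a ≤ 1 → r.res (σ a) = σb (r.res a)) {A : K[X]} (hA : gNorm v A ≤ 1) :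
    redPoly r (A.map σ) = (redPoly r A).map σb := by
  ext n
  rw [coeff_redPoly, coeff_map, coeff_map, coeff_redPoly, hσr _ ((coeff_le_gNorm v A n).trans hA)]

theorem ga2_hom_aeval {σ : K →+* K} {δ : M →+* M}
    (h1 : ∀ c, δ (algebraMap K M c) = algebraMap K M (σ c)) (x : M) (A : K[X]) :
    δ (aeval x A) = aeval (δ x) (A.map σ) := by
  rw [aeval_def, aeval_def, hom_eval₂, eval₂_map]
  congr 1
  ext c
  exact h1 c

end GA2poly

section GA2main

variable {K k M M0 : Type} [Field K] [Field k] [Field M] [Field M0] [Algebra K M] [Algebra k M0]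
  {v : Valuation K ℚᵐ⁰} {r : ResMap v k} {x y : M} {x0 y0 : M0}
  (g : GaussVal v r M M0 x y x0 y0)
  {σ : K →+* K} {σb : k →+* k} {δ : M →+* M} {δb : M0 →+* M0}

include g in
theorem ga2_coord_int (hσv : ∀ a, v (σ a) = v a) (hσr : ∀ a, v a ≤ 1 → r.res (σ a) = σb (r.res a))
    (h1 : ∀ c, δ (algebraMap K M c) = algebraMap K M (σ c))
    (h1b : ∀ c, δb (algebraMap k M0 c) = algebraMap k M0 (σb c))
    (hxy : g.v1 (δ x) ≤ 1 ∧ g.v1 (δ y) ≤ 1 ∧ g.r1.res (δ x) = δb x0 ∧ g.r1.res (δ y) = δb y0)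
    {A B : K[X]} (hA : gNorm v A ≤ 1) (hB : gNorm v B ≤ 1) :
    g.v1 (δ (aeval x A + aeval x B * y)) ≤ 1 ∧
      g.r1.res (δ (aeval x A + aeval x B * y)) = δb (g.r1.res (aeval x A + aeval x B * y)) := by
  obtain ⟨hx, hy, ex, ey⟩ := hxy
  have hA' : gNorm v (A.map σ) ≤ 1 := by rw [ga2_gNorm_map hσv]; exact hA
  have hB' : gNorm v (B.map σ) ≤ 1 := by rw [ga2_gNorm_map hσv]; exact hB
  obtain ⟨a1, a2⟩ := ga2_res_aeval g.ext g.rext hA' hx
  obtain ⟨b1, b2⟩ := ga2_res_aeval g.ext g.rext hB' hx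
  have hby : g.v1 (aeval (δ x) (B.map σ) * δ y) ≤ 1 := by
    rw [map_mul]
    exact mul_le_one' b1 hy
  rw [map_add, map_mul, ga2_hom_aeval h1, ga2_hom_aeval h1]
  refine ⟨(g.v1.map_add _ _).trans (max_le a1 hby), ?_⟩
  rw [g.r1.res_add a1 hby, g.r1.res_mul b1 hy, a2, b2, ex, ey, g.res_poly A B hA hB,
    ga2_redPoly_map hσr hA, ga2_redPoly_map hσr hB, map_add, map_mul, ga2_hom_aeval h1b,
    ga2_hom_aeval h1b]

include g in
theorem ga2_coord_iso (hσv : ∀ a, v (σ a) = v a) (hσr : ∀ a, v a ≤ 1 → r.res (σ a) = σb (r.res a))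
    (h1 : ∀ c, δ (algebraMap K M c) = algebraMap K M (σ c))
    (h1b : ∀ c, δb (algebraMap k M0 c) = algebraMap k M0 (σb c))
    (hxy : g.v1 (δ x) ≤ 1 ∧ g.v1 (δ y) ≤ 1 ∧ g.r1.res (δ x) = δb x0 ∧ g.r1.res (δ y) = δb y0)
    (A B : K[X]) :
    g.v1 (δ (aeval x A + aeval x B * y)) = g.v1 (aeval x A + aeval x B * y) := by
  by_cases h0 : A = 0 ∧ B = 0
  · obtain ⟨rfl, rfl⟩ := h0
    simp
  -- a constant of maximal value
  obtain ⟨c, hc0, hc⟩ : ∃ c : K, c ≠ 0 ∧ v c = max (gNorm v A) (gNorm v B) := by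
    rcases le_total (gNorm v A) (gNorm v B) with hle | hle
    · have hB0 : B ≠ 0 := by
        rintro rfl
        apply h0
        refine ⟨?_, rfl⟩
        rw [← gNorm_eq_zero_iff v]
        rw [(gNorm_eq_zero_iff v 0).2 rfl] at hle
        exact le_antisymm hle zero_le
      obtain ⟨n, hn, hn0⟩ := exists_coeff_eq_gNorm v hB0
      exact ⟨_, hn0, by rw [hn, max_eq_right hle]⟩
    · have hA0 : A ≠ 0 := by
        rintro rfl
        apply h0
        refine ⟨rfl, ?_⟩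
        rw [← gNorm_eq_zero_iff v]
        rw [(gNorm_eq_zero_iff v 0).2 rfl] at hle
        exact le_antisymm hle zero_le
      obtain ⟨n, hn, hn0⟩ := exists_coeff_eq_gNorm v hA0
      exact ⟨_, hn0, by rw [hn, max_eq_left hle]⟩
  have hvc : v c ≠ 0 := (Valuation.ne_zero_iff v).2 hc0
  set A' : K[X] := C c⁻¹ * A with hA'
  set B' : K[X] := C c⁻¹ * B with hB'
  have nA : gNorm v A' = (v c)⁻¹ * gNorm v A := by rw [hA', gNorm_C_mul, map_inv₀]
  have nB : gNorm v B' = (v c)⁻¹ * gNorm v B := by rw [hB', gNorm_C_mul, map_inv₀]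
  have nmax : max (gNorm v A') (gNorm v B') = 1 := by
    rw [nA, nB, ← mul_max, ← hc, inv_mul_cancel₀ hvc]
  have hA1 : gNorm v A' ≤ 1 := nmax ▸ le_max_left _ _
  have hB1 : gNorm v B' ≤ 1 := nmax ▸ le_max_right _ _
  have hP : aeval x A' + aeval x B' * y = algebraMap K M c⁻¹ * (aeval x A + aeval x B * y) := by
    rw [hA', hB', map_mul, map_mul, aeval_C]
    ring
  obtain ⟨i1, i2⟩ := ga2_coord_int g hσv hσr h1 h1b hxy hA1 hB1
  have hv1 : g.v1 (aeval x A' + aeval x B' * y) = 1 := by rw [g.v_poly, nmax]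
  have hres : g.r1.res (aeval x A' + aeval x B' * y) ≠ 0 := by
    rw [Ne, g.r1.res_eq_zero_iff hv1.le, hv1]
    exact lt_irrefl _
  have hres' : g.r1.res (δ (aeval x A' + aeval x B' * y)) ≠ 0 := by
    rw [i2]
    exact (map_ne_zero δb).2 hres
  have hv2 : g.v1 (δ (aeval x A' + aeval x B' * y)) = 1 := by
    refine le_antisymm i1 (not_lt.1 fun hlt => hres' ?_)
    exact (g.r1.res_eq_zero_iff i1).2 hlt
  rw [hP, map_mul, h1, map_mul, g.ext, hσv] at hv2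
  rw [hP, map_mul, g.ext] at hv1
  have hvc' : v c⁻¹ ≠ 0 := by rw [map_inv₀]; exact inv_ne_zero hvc
  exact mul_left_cancel₀ hvc' (hv2.trans hv1.symm)

include g in
theorem ga2_delta {W : WeierstrassCurve K} (h : IsWFF W M x y)
    (hσv : ∀ a, v (σ a) = v a) (hσr : ∀ a, v a ≤ 1 → r.res (σ a) = σb (r.res a))
    (h1 : ∀ c, δ (algebraMap K M c) = algebraMap K M (σ c))
    (h1b : ∀ c, δb (algebraMap k M0 c) = algebraMap k M0 (σb c))
    (hxy : g.v1 (δ x) ≤ 1 ∧ g.v1 (δ y) ≤ 1 ∧ g.r1.res (δ x) = δb x0 ∧ g.r1.res (δ y) = δb y0) :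
    (∀ f : M, g.v1 (δ f) = g.v1 f) ∧ ∀ f : M, g.v1 f ≤ 1 → g.r1.res (δ f) = δb (g.r1.res f) := by
  have hP0 : ∀ C : K[X], aeval x C = aeval x C + aeval x (0 : K[X]) * y := by
    intro C
    rw [map_zero, zero_mul, add_zero]
  have iso : ∀ f : M, g.v1 (δ f) = g.v1 f := by
    intro f
    obtain ⟨A, B, C, hC, hf⟩ := h.repr f
    have hC0 : g.v1 (aeval x C) ≠ 0 := (Valuation.ne_zero_iff _).2 (h.ell1b_aeval_ne hC)
    have e1 := ga2_coord_iso g hσv hσr h1 h1b hxy A B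
    have e2 := ga2_coord_iso g hσv hσr h1 h1b hxy C 0
    rw [← hP0] at e2
    rw [← hf, map_mul, map_mul, map_mul, e2] at e1
    exact mul_right_cancel₀ hC0 e1
  refine ⟨iso, ?_⟩
  intro f hf1
  obtain ⟨A, B, C, hC, hf⟩ := h.repr f
  obtain ⟨n, hn, hn0⟩ := exists_coeff_eq_gNorm v hC
  set c : K := C.coeff n with hc
  have hvc : v c ≠ 0 := (Valuation.ne_zero_iff v).2 hn0
  obtain ⟨A', hA'⟩ : ∃ A' : K[X], A' = Polynomial.C c⁻¹ * A := ⟨_, rfl⟩
  obtain ⟨B', hB'⟩ : ∃ B' : K[X], B' = Polynomial.C c⁻¹ * B := ⟨_, rfl⟩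
  obtain ⟨C', hC'⟩ : ∃ C' : K[X], C' = Polynomial.C c⁻¹ * C := ⟨_, rfl⟩
  have nC : gNorm v C' = 1 := by
    rw [hC', gNorm_C_mul, map_inv₀, ← hn, inv_mul_cancel₀ hvc]
  have hf' : f * aeval x C' = aeval x A' + aeval x B' * y := by
    rw [hA', hB', hC', map_mul, map_mul, map_mul, aeval_C]
    linear_combination (algebraMap K M c⁻¹) * hf
  have n0 : gNorm v (0 : K[X]) = 0 := (gNorm_eq_zero_iff v 0).2 rfl
  have vC : g.v1 (aeval x C') = 1 := by
    rw [hP0, g.v_poly, nC, n0]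
    exact max_eq_left zero_le
  have vP : max (gNorm v A') (gNorm v B') ≤ 1 := by
    rw [← g.v_poly, ← hf', map_mul, vC, mul_one]
    exact hf1
  have hA1 : gNorm v A' ≤ 1 := (le_max_left _ _).trans vP
  have hB1 : gNorm v B' ≤ 1 := (le_max_right _ _).trans vP
  obtain ⟨-, i2⟩ := ga2_coord_int g hσv hσr h1 h1b hxy hA1 hB1
  obtain ⟨-, j2⟩ := ga2_coord_int g hσv hσr h1 h1b hxy nC.le (n0.le.trans zero_le_one)
  rw [← hP0] at j2
  have hresC : g.r1.res (aeval x C') ≠ 0 := by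
    rw [Ne, g.r1.res_eq_zero_iff vC.le, vC]
    exact lt_irrefl _
  rw [← hf', map_mul, g.r1.res_mul (by rw [iso]; exact hf1) (by rw [iso]; exact vC.le), j2,
    g.r1.res_mul hf1 vC.le, map_mul] at i2
  exact mul_right_cancel₀ ((map_ne_zero δb).2 hresC) i2

end GA2main

namespace TwBase

variable {p : ℕ} [Fact p.Prime] {L XX : Type} [Field L] [Field XX] [Algebra L XX] (T : TwBase p L XX)

/-- Gauss valuations of `XX1` with residue field `ES` -/
abbrev GV : Type := GaussVal T.vL1 T.rL1 T.XX1 T.ES T.xt T.yt T.x0 T.y0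

theorem redCurve1 : RedCurve T.vL1 T.rL1 (T.Wt.baseChange T.L1) (T.R.W0.baseChange T.R.S) :=
  ga2_redCurve_ext T.red_W T.ext1 T.rext1

theorem hΔt : T.Wt.Δ ≠ 0 := T.red_W.disc_ne_zero T.R.hΔ

theorem nonempty_GV : Nonempty T.GV := exists_gaussVal T.redCurve1 T.twL.wff T.twF.wff

variable {T}

theorem delta_xy (g : T.GV) {δ : T.XX1 ≃ₐ[XX] T.XX1}
    (h2 : IsTransBy (T.Wt.baseChange T.L1) T.xt T.yt (δ T.xt) (δ T.yt) T.Q) {δb : T.ES ≃ₐ[T.EE] T.ES}
    (h2b : IsTransBy (T.R.W0.baseChange T.R.S) T.x0 T.y0 (δb T.x0) (δb T.y0) T.R.Qb) :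
    g.v1 (δ T.xt) ≤ 1 ∧ g.v1 (δ T.yt) ≤ 1 ∧ g.r1.res (δ T.xt) = δb T.x0 ∧ g.r1.res (δ T.yt) = δb T.y0 := by
  have hg := T.twL.wff.nonsingular_gen T.hΔt
  have hg0 := T.twF.wff.nonsingular_gen T.R.hΔ
  obtain ⟨hns, e⟩ := (T.twL.wff.isTransBy_iff hg _ _ _).1 h2
  obtain ⟨hns0, e0⟩ := (T.twF.wff.isTransBy_iff hg0 _ _ _).1 h2b
  have hW : RedCurve g.v1 g.r1 (T.Wt.baseChange T.XX1) (T.R.W0.baseChange T.ES) :=
    ga2_redCurve_ext T.red_W (ga2_valExt_trans g.ext T.ext1) (ga2_resExt_trans T.ext1 g.rext T.rext1)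
  have hG : RedPt g.v1 g.r1 (Affine.Point.some T.xt T.yt hg) (Affine.Point.some T.x0 T.y0 hg0) :=
    ⟨g.res_x.1.le, g.res_y.1.le, g.res_x.2, g.res_y.2⟩
  have hQ := ga2_redPt_map (Wt := T.Wt) (W0 := T.R.W0) g.ext g.rext T.red_Q
  have hsum := hG.add hW (ell5a_Δ_ne_zero T.R.hΔ) hQ
  rw [← e, ← e0] at hsum
  exact hsum

/-- **`δ` is an isometry and reduces to `δb`** -/
theorem delta (g : T.GV) {δ : T.XX1 ≃ₐ[XX] T.XX1}
    (h1 : ∀ c : T.L1, δ (algebraMap T.L1 T.XX1 c) = algebraMap T.L1 T.XX1 (T.σ c))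
    (h2 : IsTransBy (T.Wt.baseChange T.L1) T.xt T.yt (δ T.xt) (δ T.yt) T.Q) {δb : T.ES ≃ₐ[T.EE] T.ES}
    (h1b : ∀ c : T.R.S, δb (algebraMap T.R.S T.ES c) = algebraMap T.R.S T.ES (T.R.σb c))
    (h2b : IsTransBy (T.R.W0.baseChange T.R.S) T.x0 T.y0 (δb T.x0) (δb T.y0) T.R.Qb) :
    (∀ f : T.XX1, g.v1 (δ f) = g.v1 f) ∧ ∀ f : T.XX1, g.v1 f ≤ 1 → g.r1.res (δ f) = δb (g.r1.res f) :=
  ga2_delta g (σ := (T.σ : T.L1 →+* T.L1)) (σb := (T.R.σb : T.R.S →+* T.R.S))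
    (δ := (δ : T.XX1 →+* T.XX1)) (δb := (δb : T.ES →+* T.ES)) T.twL.wff T.σ_val T.σ_res h1 h1b
    (delta_xy g h2 h2b)

end TwBase

end Claimed.Agent.R280
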