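import Claimed.Agent.R280.Gauss.Delta

/-!
# Row 280, Gauss package GA3 `Desc`: descent of the Gauss valuation to `XX`, residue field `EE`

`vX := g.v1 ∘ algebraMap XX XX1`.   RESULT: a residue map `rX` of `vX` ONTO `EE`, compatible with `g.r1` and `EE ⊆ ES`.

PLAN.  Fix `δ`, `δb` from `T.twL.twist`, `T.twF.twist`.
* into `EE`: for `f ∈ XX` integral, `δ (alg f) = alg f`, so `res (alg f)` is fixed by `δb` (`delta`); `ES/EE` is Galois with group `⟨δb⟩` (`IsTwist.aut_eq_zpowers`), so it lies in the image of `EE`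
  (`IsGalois.mem_range_algebraMap_iff_fixed` or `fixedField`-API).  This defines a ring homomorphism `O_{vX} → EE` (injectivity of `EE → ES`), kernel `= {vX < 1}` (`ResMap.ker` of `g.r1`).
* onto: `n := [L1:L] = [S:F]` (`T.deg_eq`), `δ^n = 1`, `δb^n = 1`.  The trace `S → F` is onto (separable): take `θ̄ ∈ S` with `∑_{k<n} σb^k θ̄ = 1` and a lift `θ ∈ L1`.
  For `ē ∈ EE` take `e1 ∈ XX1` integral with residue `alg ē` (`g.r1.surj`); `f1 := ∑_{k<n} δ^k (θ e1)` is `δ`-invariant, so `f1 = alg f` with `f ∈ XX` (Galois), integral, and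
  `res f1 = ∑ σb^k(θ̄) · ē = ē`.
The abstract form of the argument is `desc_exists_resMap`.   Owner of the statements: helper66.
-/

set_option autoImplicit false

namespace Claimed.Agent.R280

open WithZero

/-! ### generalities -/

/-- a sum over a finite cyclic group is a sum over the powers of a generator -/
theorem desc_sum_cyclic {G A : Type} [Group G] [Fintype G] [AddCommMonoid A] (s : G)
    (hs : ∀ τ : G, τ ∈ Subgroup.zpowers s) (f : G → A) :
    ∑ τ : G, f τ = ∑ k ∈ Finset.range (Nat.card G), f (s ^ k) := by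
  classical
  have ho : orderOf s = Nat.card G := orderOf_eq_card_of_forall_mem_zpowers hs
  rw [← ho]
  have hu : (Finset.univ : Finset G) = (Finset.range (orderOf s)).image (fun k => s ^ k) := by
    ext τ
    simp only [Finset.mem_univ, true_iff]
    exact (mem_zpowers_iff_mem_range_orderOf).1 (hs τ)
  rw [hu, Finset.sum_image]
  intro a ha b hb hab
  exact pow_injOn_Iio_orderOf (by simpa using ha) (by simpa using hb) hab

/-- an element fixed by a generator is fixed by the whole group -/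
theorem desc_fixed_of_gen {X X1 : Type} [Field X] [Field X1] [Algebra X X1] {δ : X1 ≃ₐ[X] X1}
    (hgen : ∀ τ : X1 ≃ₐ[X] X1, τ ∈ Subgroup.zpowers δ) {z : X1} (hz : δ z = z) (τ : X1 ≃ₐ[X] X1) :
    τ z = z := by
  have h : Subgroup.zpowers δ ≤ MulAction.stabilizer (X1 ≃ₐ[X] X1) z := by
    rw [Subgroup.zpowers_le]
    exact hz
  exact h (hgen τ)

section Res

variable {K k : Type} [Field K] [Field k] {v : Valuation K ℚᵐ⁰} (r : ResMap v k)

theorem desc_val_sum_le {ι : Type} (s : Finset ι) (f : ι → K) (h : ∀ i ∈ s, v (f i) ≤ 1) :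
    v (∑ i ∈ s, f i) ≤ 1 := v.map_sum_le h

theorem desc_res_sum {ι : Type} (s : Finset ι) (f : ι → K) (h : ∀ i ∈ s, v (f i) ≤ 1) :
    r.res (∑ i ∈ s, f i) = ∑ i ∈ s, r.res (f i) := by
  classical
  induction s using Finset.induction_on with
  | empty => simp [r.res_zero]
  | insert a s ha ih =>
    rw [Finset.sum_insert ha, Finset.sum_insert ha,
      r.res_add (h a (Finset.mem_insert_self a s))
        (desc_val_sum_le s f fun i hi => h i (Finset.mem_insert_of_mem hi)),
      ih fun i hi => h i (Finset.mem_insert_of_mem hi)]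

end Res

/-! ### the abstract descent -/

section Abstract

variable {X X1 E E1 : Type} [Field X] [Field X1] [Field E] [Field E1] [Algebra X X1] [Algebra E E1]
  {v1 : Valuation X1 ℚᵐ⁰} (r1 : ResMap v1 E1) {δ : X1 ≃ₐ[X] X1} {δb : E1 ≃ₐ[E] E1}

theorem desc_pow_val (hiso : ∀ f : X1, v1 (δ f) = v1 f) (j : ℕ) (f : X1) : v1 ((δ ^ j) f) = v1 f := by
  induction j with
  | zero => simp
  | succ j ih => rw [pow_succ', AlgEquiv.mul_apply, hiso, ih]

theorem desc_pow_res (hiso : ∀ f : X1, v1 (δ f) = v1 f)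
    (hres : ∀ f : X1, v1 f ≤ 1 → r1.res (δ f) = δb (r1.res f)) (j : ℕ) {f : X1} (hf : v1 f ≤ 1) :
    r1.res ((δ ^ j) f) = (δb ^ j) (r1.res f) := by
  induction j with
  | zero => simp
  | succ j ih =>
    rw [pow_succ', AlgEquiv.mul_apply, hres _ (by rw [desc_pow_val hiso]; exact hf), ih, pow_succ',
      AlgEquiv.mul_apply]

/-- the residue of an integral element of the small field lies in the small residue field -/
theorem desc_res_mem [IsGalois E E1] (hgenb : ∀ τ : E1 ≃ₐ[E] E1, τ ∈ Subgroup.zpowers δb)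
    (hres : ∀ f : X1, v1 f ≤ 1 → r1.res (δ f) = δb (r1.res f)) {f : X}
    (hf : v1 (algebraMap X X1 f) ≤ 1) :
    r1.res (algebraMap X X1 f) ∈ Set.range (algebraMap E E1) := by
  rw [InfiniteGalois.mem_range_algebraMap_iff_fixed]
  apply desc_fixed_of_gen hgenb
  rw [← hres _ hf, δ.commutes]

/-- **Abstract descent of a residue map** along cyclic Galois extensions `X1/X`, `E1/E` whose generators correspond. -/
theorem desc_exists_resMap [IsGalois X X1] [IsGalois E E1]
    (hgen : ∀ τ : X1 ≃ₐ[X] X1, τ ∈ Subgroup.zpowers δ)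
    (hgenb : ∀ τ : E1 ≃ₐ[E] E1, τ ∈ Subgroup.zpowers δb)
    (hiso : ∀ f : X1, v1 (δ f) = v1 f)
    (hres : ∀ f : X1, v1 f ≤ 1 → r1.res (δ f) = δb (r1.res f))
    (n : ℕ) (hn : δ ^ n = 1) (θ : X1) (hθ : v1 θ ≤ 1)
    (hsum : ∑ j ∈ Finset.range n, (δb ^ j) (r1.res θ) = 1) :
    ∃ rX : ResMap (v1.comap (algebraMap X X1)) E,
      ∀ f : X, v1 (algebraMap X X1 f) ≤ 1 → algebraMap E E1 (rX.res f) = r1.res (algebraMap X X1 f) := by
  classical
  set vX : Valuation X ℚᵐ⁰ := v1.comap (algebraMap X X1) with hvX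
  have hinj : Function.Injective (algebraMap E E1) := (algebraMap E E1).injective
  -- the map `O_{vX} → O_{v1}`
  have hmem : ∀ x : vX.valuationSubring, v1 (algebraMap X X1 (x : X)) ≤ 1 := fun x =>
    (Valuation.mem_valuationSubring_iff vX _).1 x.2
  let ι : vX.valuationSubring →+* v1.valuationSubring :=
    ((algebraMap X X1).comp vX.valuationSubring.subtype).codRestrict v1.valuationSubring.toSubring
      fun x => (Valuation.mem_valuationSubring_iff v1 _).2 (hmem x)
  let φ : vX.valuationSubring →+* E1 := r1.toHom.comp ι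
  have hφ : ∀ x : vX.valuationSubring, φ x = r1.res (algebraMap X X1 (x : X)) := fun x => by
    rw [ResMap.res, dif_pos (hmem x)]
    rfl
  have hφmem : ∀ x : vX.valuationSubring, φ x ∈ (algebraMap E E1).fieldRange := fun x => by
    rw [hφ]
    exact desc_res_mem r1 hgenb hres (hmem x)
  let ψ : vX.valuationSubring →+* E :=
    ((algebraMap E E1).rangeRestrictFieldEquiv.symm : (algebraMap E E1).fieldRange →+* E).comp
      (φ.codRestrict (algebraMap E E1).fieldRange.toSubring hφmem)
  have hψ : ∀ x : vX.valuationSubring, algebraMap E E1 (ψ x) = φ x := fun x =>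
    RingHom.rangeRestrictFieldEquiv_apply_symm_apply (algebraMap E E1) ⟨φ x, hφmem x⟩
  -- the kernel
  have hker : ∀ x : vX.valuationSubring, ψ x = 0 ↔ vX (x : X) < 1 := fun x => by
    rw [← map_eq_zero_iff (algebraMap E E1) hinj, hψ]
    exact r1.ker (ι x)
  -- surjectivity
  have hsurj : Function.Surjective ψ := by
    intro eb
    obtain ⟨e1, he1, hre1⟩ := r1.exists_res (algebraMap E E1 eb)
    have hz : v1 (θ * e1) ≤ 1 := by
      rw [map_mul]
      exact mul_le_one' hθ he1
    set f1 : X1 := ∑ j ∈ Finset.range n, (δ ^ j) (θ * e1) with hf1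
    have hfix : δ f1 = f1 := by
      have h1 : δ f1 = ∑ j ∈ Finset.range n, (δ ^ (j + 1)) (θ * e1) := by
        rw [hf1, map_sum]
        refine Finset.sum_congr rfl fun j _ => ?_
        rw [pow_succ', AlgEquiv.mul_apply]
      have h2 := Finset.sum_range_succ (fun j => (δ ^ j) (θ * e1)) n
      have h3 := Finset.sum_range_succ' (fun j => (δ ^ j) (θ * e1)) n
      rw [h2, hn] at h3
      simp only [pow_zero, AlgEquiv.one_apply] at h3
      rw [h1]
      exact (add_right_cancel h3).symm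
    obtain ⟨f, hf⟩ := (InfiniteGalois.mem_range_algebraMap_iff_fixed (k := X) (K := X1) f1).2
      (desc_fixed_of_gen hgen hfix)
    have hterm : ∀ j ∈ Finset.range n, v1 ((δ ^ j) (θ * e1)) ≤ 1 := fun j _ => by
      rw [desc_pow_val hiso]
      exact hz
    have hf1le : v1 f1 ≤ 1 := desc_val_sum_le _ _ hterm
    have hfle : vX f ≤ 1 := by
      rw [hvX, Valuation.comap_apply, hf]
      exact hf1le
    refine ⟨⟨f, (Valuation.mem_valuationSubring_iff vX f).2 hfle⟩, hinj ?_⟩
    rw [hψ, hφ]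
    change r1.res (algebraMap X X1 f) = _
    rw [hf, hf1, desc_res_sum r1 _ _ hterm]
    have : ∀ j ∈ Finset.range n, r1.res ((δ ^ j) (θ * e1)) =
        (δb ^ j) (r1.res θ) * algebraMap E E1 eb := fun j _ => by
      rw [desc_pow_res r1 hiso hres j hz, r1.res_mul hθ he1, map_mul, hre1, AlgEquiv.commutes]
    rw [Finset.sum_congr rfl this, ← Finset.sum_mul, hsum, one_mul]
  refine ⟨⟨ψ, hsurj, hker⟩, fun f hf => ?_⟩
  have hf' : vX f ≤ 1 := hf
  rw [ResMap.res, dif_pos hf']
  exact (hψ _).trans (hφ _)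

end Abstract

/-- in a finite cyclic Galois extension some element has "power-sum trace" one -/
theorem desc_exists_trace_one {F S : Type} [Field F] [Field S] [Algebra F S] [FiniteDimensional F S]
    [IsGalois F S] (σb : S ≃ₐ[F] S) (hgen : ∀ τ : S ≃ₐ[F] S, τ ∈ Subgroup.zpowers σb) :
    ∃ θ : S, ∑ j ∈ Finset.range (Module.finrank F S), (σb ^ j) θ = 1 := by
  classical
  obtain ⟨θ, hθ⟩ := Algebra.trace_surjective F S 1
  refine ⟨θ, ?_⟩
  have h := trace_eq_sum_automorphisms (K := F) (L := S) θ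
  rw [hθ, map_one, desc_sum_cyclic σb hgen (fun τ => τ θ), IsGalois.card_aut_eq_finrank] at h
  exact h.symm

namespace TwBase

variable {p : ℕ} [Fact p.Prime] {L XX : Type} [Field L] [Field XX] [Algebra L XX] {T : TwBase p L XX}

/-- the Gauss valuation of `XX` -/
noncomputable def vX (g : T.GV) : Valuation XX ℚᵐ⁰ := g.v1.comap (algebraMap XX T.XX1)

theorem vX_apply (g : T.GV) (f : XX) : vX g f = g.v1 (algebraMap XX T.XX1 f) := rfl

theorem exists_desc (g : T.GV) : ∃ rX : ResMap (vX g) T.EE,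
    ∀ f : XX, vX g f ≤ 1 → algebraMap T.EE T.ES (rX.res f) = g.r1.res (algebraMap XX T.XX1 f) := by
  obtain ⟨δ, h1, h2⟩ := T.twL.twist
  obtain ⟨δb, h1b, h2b⟩ := T.twF.twist
  obtain ⟨hiso, hres⟩ := delta g h1 h2 h1b h2b
  obtain ⟨hG, hd, hgen⟩ := T.twL.aut_eq_zpowers δ h1
  obtain ⟨hGb, _, hgenb⟩ := T.twF.aut_eq_zpowers δb h1b
  obtain ⟨θb, hθb⟩ := desc_exists_trace_one T.R.σb T.R.σb_gen
  obtain ⟨θ, hθ, hrθ⟩ := T.rL1.exists_res θb
  have hfin : FiniteDimensional XX T.XX1 := by
    apply FiniteDimensional.of_finrank_pos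
    rw [hd]
    exact Module.finrank_pos
  have hn : δ ^ Module.finrank T.R.F T.R.S = 1 := by
    rw [← T.deg_eq, ← hd, ← IsGalois.card_aut_eq_finrank]
    exact pow_card_eq_one'
  have hpow : ∀ (j : ℕ) (c : T.R.S), (δb ^ j) (algebraMap T.R.S T.ES c) =
      algebraMap T.R.S T.ES ((T.R.σb ^ j) c) := by
    intro j
    induction j with
    | zero => intro c; simp
    | succ j ih => intro c; rw [pow_succ', AlgEquiv.mul_apply, ih, h1b, pow_succ', AlgEquiv.mul_apply]
  refine desc_exists_resMap g.r1 hgen hgenb hiso hres (Module.finrank T.R.F T.R.S) hn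
    (algebraMap T.L1 T.XX1 θ) (by rw [g.ext]; exact hθ) ?_
  rw [g.rext θ hθ, hrθ]
  simp only [hpow]
  rw [← map_sum, hθb, map_one]

theorem vX_ext (g : T.GV) (a : L) : vX g (algebraMap L XX a) = T.vL a := by
  rw [vX_apply, ← IsScalarTower.algebraMap_apply L XX T.XX1, IsScalarTower.algebraMap_apply L T.L1 T.XX1,
    g.ext, T.ext1]

theorem rX_ext (g : T.GV) (rX : ResMap (vX g) T.EE)
    (h : ∀ f : XX, vX g f ≤ 1 → algebraMap T.EE T.ES (rX.res f) = g.r1.res (algebraMap XX T.XX1 f)) (a : L)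
    (ha : T.vL a ≤ 1) : rX.res (algebraMap L XX a) = algebraMap T.R.F T.EE (T.rL.res a) := by
  apply (algebraMap T.EE T.ES).injective
  rw [h _ (by rw [vX_ext]; exact ha), ← IsScalarTower.algebraMap_apply L XX T.XX1,
    IsScalarTower.algebraMap_apply L T.L1 T.XX1, g.rext _ (by rw [T.ext1]; exact ha), T.rext1 _ ha,
    ← IsScalarTower.algebraMap_apply, ← IsScalarTower.algebraMap_apply]

end TwBase

end Claimed.Agent.R280
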