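import Claimed.Agent.R280.Gauss.TwPlaces

/-!
# Row 280, Gauss package GA1a `GNorm`: the Gauss norm on `K[X]` and coefficientwise reduction;  GA1b: the norm on the coordinate ring of a Weierstrass curve

`K` valued (`v : Valuation K ℚᵐ⁰`), residue map `r` onto `k`.

PLAN GA1a (~600 lines).  Everything from `coeff`: `gNorm A = sup_n v (A.coeff n)`.
* `gNorm_mul` (Gauss lemma): `≤` from the convolution formula.  `=`: scale both factors to norm `1` by a coefficient of maximal value (`exists_coeff_eq_gNorm`, `gNorm_C_mul`); then `redPoly A`, `redPoly B ≠ 0`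
  (`redPoly_eq_zero_iff`), `k[X]` is a domain, `redPoly (A B) = redPoly A · redPoly B ≠ 0`, so `gNorm (A B) = 1`.
* `redPoly_add/mul`: `coeff_redPoly` + `ResMap.res_add/res_mul` and finite sums (`res` of a finite sum of integral elements).
* `redPoly_surj`: lift the coefficients (`r.surj`), lifting `0` by `0`.
PLAN GA1b (~500 lines).
* `IsWFF.mul_repr`: `y² = cub(x) - lin(x) y` is `h.equation` (unfold `Affine.Equation`, `Affine.polynomial`, `evalEval`; `baseChange` maps the coefficients by `algebraMap`).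
* `pN_mul`: `≤`: `gNorm_mul`, `gNorm_add_le`, `gNorm (cub Wt), gNorm (lin Wt) ≤ 1` (`RedCurve`).  `=`: scale to norm `1`; `ρ(A,B) := redPoly A (x0) + redPoly B (x0) y0 ∈ M0` is `≠ 0` if `pN = 1` (`IsWFF.repr_unique` for `M0`);
  `ρ (wA, wB) = ρ(A,B) ρ(A',B')` (`mul_repr` for `M0`, `redPoly (cub Wt) = cub W0`); `M0` is a field.
Owner of the statements: helper66.
-/

set_option autoImplicit false

namespace Claimed.Agent.R280

open WithZero WeierstrassCurve Polynomial
open scoped Classical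

section Defs

variable {K k : Type} [Field K] [Field k]

/-- the Gauss norm of a polynomial -/
noncomputable def gNorm (v : Valuation K ℚᵐ⁰) (A : K[X]) : ℚᵐ⁰ := A.support.sup fun n => v (A.coeff n)

/-- coefficientwise reduction of a polynomial -/
noncomputable def redPoly {v : Valuation K ℚᵐ⁰} (r : ResMap v k) (A : K[X]) : k[X] :=
  ∑ n ∈ A.support, Polynomial.monomial n (r.res (A.coeff n))

end Defs

/-! ### general `ResMap` facts -/
section Res

variable {K k : Type} [Field K] [Field k] {v : Valuation K ℚᵐ⁰} (r : ResMap v k)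

theorem ResMap.ga1_res_eq {x : K} (h : v x ≤ 1) :
    r.res x = r.toHom ⟨x, (Valuation.mem_valuationSubring_iff v x).2 h⟩ := by
  rw [ResMap.res, dif_pos h]

theorem ResMap.res_add {a b : K} (ha : v a ≤ 1) (hb : v b ≤ 1) : r.res (a + b) = r.res a + r.res b := by
  have hab : v (a + b) ≤ 1 := (v.map_add a b).trans (max_le ha hb)
  rw [r.ga1_res_eq ha, r.ga1_res_eq hb, r.ga1_res_eq hab, ← map_add]
  rfl

theorem ResMap.res_mul {a b : K} (ha : v a ≤ 1) (hb : v b ≤ 1) : r.res (a * b) = r.res a * r.res b := by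
  have hab : v (a * b) ≤ 1 := by
    rw [map_mul]
    exact mul_le_one' ha hb
  rw [r.ga1_res_eq ha, r.ga1_res_eq hb, r.ga1_res_eq hab, ← map_mul]
  rfl

theorem ResMap.res_eq_zero_iff {a : K} (ha : v a ≤ 1) : r.res a = 0 ↔ v a < 1 := by
  rw [r.ga1_res_eq ha, r.ker]

theorem ResMap.res_one : r.res 1 = 1 := by
  rw [r.ga1_res_eq (by rw [map_one])]
  exact map_one r.toHom

theorem ResMap.res_zero : r.res 0 = 0 := by
  rw [r.ga1_res_eq (by rw [map_zero]; exact zero_le)]
  exact map_zero r.toHom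

theorem ResMap.res_neg {a : K} (ha : v a ≤ 1) : r.res (-a) = - r.res a := by
  have hna : v (-a) ≤ 1 := by rw [Valuation.map_neg]; exact ha
  rw [r.ga1_res_eq ha, r.ga1_res_eq hna, ← map_neg]
  rfl

theorem ResMap.exists_res (c : k) : ∃ a : K, v a ≤ 1 ∧ r.res a = c := by
  obtain ⟨x, hx⟩ := r.surj c
  have h1 : v (x : K) ≤ 1 := (Valuation.mem_valuationSubring_iff v _).1 x.2
  exact ⟨x, h1, by rw [r.ga1_res_eq h1]; exact hx⟩

/-- residue of a finite sum of integral elements -/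
theorem ResMap.ga1_res_sum {ι : Type} (s : Finset ι) (f : ι → K) (hf : ∀ i ∈ s, v (f i) ≤ 1) :
    v (∑ i ∈ s, f i) ≤ 1 ∧ r.res (∑ i ∈ s, f i) = ∑ i ∈ s, r.res (f i) := by
  induction s using Finset.induction_on with
  | empty => exact ⟨by simp, by simpa using r.res_zero⟩
  | insert a s ha ih =>
    obtain ⟨h1, h2⟩ := ih fun i hi => hf i (Finset.mem_insert_of_mem hi)
    have h3 := hf a (Finset.mem_insert_self a s)
    rw [Finset.sum_insert ha, Finset.sum_insert ha]
    exact ⟨(v.map_add _ _).trans (max_le h3 h1), by rw [r.res_add h3 h1, h2]⟩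

/-- residue of a power of an integral element -/
theorem ResMap.ga1_res_pow {a : K} (ha : v a ≤ 1) (n : ℕ) : v (a ^ n) ≤ 1 ∧ r.res (a ^ n) = r.res a ^ n := by
  induction n with
  | zero => exact ⟨by simp, by simpa using r.res_one⟩
  | succ n ih =>
    obtain ⟨h1, h2⟩ := ih
    rw [pow_succ, pow_succ]
    exact ⟨by rw [map_mul]; exact mul_le_one' h1 ha, by rw [r.res_mul h1 ha, h2]⟩

end Res

/-! ### GA1a -/
section GNorm

variable {K k : Type} [Field K] [Field k] (v : Valuation K ℚᵐ⁰)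

theorem coeff_le_gNorm (A : K[X]) (n : ℕ) : v (A.coeff n) ≤ gNorm v A := by
  by_cases h : n ∈ A.support
  · exact Finset.le_sup (f := fun n => v (A.coeff n)) h
  · rw [Polynomial.notMem_support_iff.1 h, map_zero]
    exact zero_le

theorem gNorm_le_iff (A : K[X]) (γ : ℚᵐ⁰) : gNorm v A ≤ γ ↔ ∀ n, v (A.coeff n) ≤ γ := by
  constructor
  · intro h n
    exact (coeff_le_gNorm v A n).trans h
  · intro h
    exact Finset.sup_le fun n _ => h n

theorem exists_coeff_eq_gNorm {A : K[X]} (hA : A ≠ 0) : ∃ n, v (A.coeff n) = gNorm v A ∧ A.coeff n ≠ 0 := by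
  have hne : A.support.Nonempty := Polynomial.nonempty_support_iff.2 hA
  obtain ⟨n, hn, h⟩ := Finset.exists_mem_eq_sup A.support hne fun n => v (A.coeff n)
  exact ⟨n, h.symm, Polynomial.mem_support_iff.1 hn⟩

theorem gNorm_eq_zero_iff (A : K[X]) : gNorm v A = 0 ↔ A = 0 := by
  constructor
  · intro h
    by_contra hA
    obtain ⟨n, h1, h2⟩ := exists_coeff_eq_gNorm v hA
    rw [h, Valuation.zero_iff] at h1
    exact h2 h1
  · rintro rfl
    simp [gNorm]

theorem gNorm_add_le (A B : K[X]) : gNorm v (A + B) ≤ max (gNorm v A) (gNorm v B) := by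
  rw [gNorm_le_iff]
  intro n
  rw [Polynomial.coeff_add]
  exact (v.map_add _ _).trans (max_le_max (coeff_le_gNorm v A n) (coeff_le_gNorm v B n))

theorem gNorm_C_mul (a : K) (A : K[X]) : gNorm v (C a * A) = v a * gNorm v A := by
  apply le_antisymm
  · rw [gNorm_le_iff]
    intro n
    rw [Polynomial.coeff_C_mul, map_mul]
    exact mul_le_mul' le_rfl (coeff_le_gNorm v A n)
  · by_cases hA : A = 0
    · subst hA
      rw [(gNorm_eq_zero_iff v 0).2 rfl, mul_zero]
      exact zero_le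
    · obtain ⟨n, h1, -⟩ := exists_coeff_eq_gNorm v hA
      rw [← h1, ← map_mul, ← Polynomial.coeff_C_mul]
      exact coeff_le_gNorm v _ n

theorem gNorm_C (a : K) : gNorm v (C a) = v a := by
  apply le_antisymm
  · rw [gNorm_le_iff]
    intro n
    rw [Polynomial.coeff_C]
    split_ifs
    · exact le_rfl
    · rw [map_zero]
      exact zero_le
  · have := coeff_le_gNorm v (C a) 0
    rwa [Polynomial.coeff_C_zero] at this

theorem gNorm_of_monic {A : K[X]} (hA : A.Monic) (h : ∀ n, v (A.coeff n) ≤ 1) : gNorm v A = 1 := by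
  apply le_antisymm
  · exact (gNorm_le_iff v A 1).2 h
  · have := coeff_le_gNorm v A A.natDegree
    rwa [hA.coeff_natDegree, map_one] at this

variable {v} (r : ResMap v k)

theorem coeff_redPoly (A : K[X]) (n : ℕ) : (redPoly r A).coeff n = r.res (A.coeff n) := by
  rw [redPoly, Polynomial.finsetSum_coeff]
  simp only [Polynomial.coeff_monomial]
  rw [Finset.sum_ite_eq']
  split_ifs with h
  · rfl
  · rw [Polynomial.notMem_support_iff.1 h, r.res_zero]

theorem redPoly_add {A B : K[X]} (hA : gNorm v A ≤ 1) (hB : gNorm v B ≤ 1) :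
    redPoly r (A + B) = redPoly r A + redPoly r B := by
  ext n
  rw [Polynomial.coeff_add, coeff_redPoly, coeff_redPoly, coeff_redPoly, Polynomial.coeff_add,
    r.res_add ((coeff_le_gNorm v A n).trans hA) ((coeff_le_gNorm v B n).trans hB)]

theorem redPoly_mul {A B : K[X]} (hA : gNorm v A ≤ 1) (hB : gNorm v B ≤ 1) :
    redPoly r (A * B) = redPoly r A * redPoly r B := by
  ext n
  rw [coeff_redPoly, Polynomial.coeff_mul, Polynomial.coeff_mul]
  have hA' : ∀ m, v (A.coeff m) ≤ 1 := fun m => (coeff_le_gNorm v A m).trans hA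
  have hB' : ∀ m, v (B.coeff m) ≤ 1 := fun m => (coeff_le_gNorm v B m).trans hB
  rw [(r.ga1_res_sum _ _ fun x _ => by rw [map_mul]; exact mul_le_one' (hA' _) (hB' _)).2]
  refine Finset.sum_congr rfl fun x _ => ?_
  rw [r.res_mul (hA' _) (hB' _), coeff_redPoly, coeff_redPoly]

theorem redPoly_eq_zero_iff {A : K[X]} (hA : gNorm v A ≤ 1) : redPoly r A = 0 ↔ gNorm v A < 1 := by
  have hA' : ∀ m, v (A.coeff m) ≤ 1 := fun m => (coeff_le_gNorm v A m).trans hA
  constructor
  · intro h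
    by_cases h0 : A = 0
    · rw [(gNorm_eq_zero_iff v A).2 h0]
      exact zero_lt_one
    · obtain ⟨n, h1, -⟩ := exists_coeff_eq_gNorm v h0
      rw [← h1, ← r.res_eq_zero_iff (hA' n), ← coeff_redPoly, h, Polynomial.coeff_zero]
  · intro h
    ext n
    rw [coeff_redPoly, Polynomial.coeff_zero, r.res_eq_zero_iff (hA' n)]
    exact (coeff_le_gNorm v A n).trans_lt h

theorem natDegree_redPoly_le (A : K[X]) : (redPoly r A).natDegree ≤ A.natDegree := by
  rw [Polynomial.natDegree_le_iff_coeff_eq_zero]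
  intro N hN
  rw [coeff_redPoly, Polynomial.coeff_eq_zero_of_natDegree_lt hN, r.res_zero]

theorem redPoly_surj (A0 : k[X]) : ∃ A : K[X], gNorm v A ≤ 1 ∧ redPoly r A = A0 ∧ A.natDegree = A0.natDegree := by
  have hl : ∀ c : k, ∃ a : K, v a ≤ 1 ∧ r.res a = c ∧ (c = 0 → a = 0) := by
    intro c
    by_cases hc : c = 0
    · exact ⟨0, by rw [map_zero]; exact zero_le, by rw [r.res_zero, hc], fun _ => rfl⟩
    · obtain ⟨a, h1, h2⟩ := r.exists_res c
      exact ⟨a, h1, h2, fun h => absurd h hc⟩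
  choose lift h1 h2 h3 using hl
  have hco : ∀ n, (∑ m ∈ A0.support, Polynomial.monomial m (lift (A0.coeff m))).coeff n = lift (A0.coeff n) := by
    intro n
    rw [Polynomial.finsetSum_coeff]
    simp only [Polynomial.coeff_monomial]
    rw [Finset.sum_ite_eq']
    split_ifs with h
    · rfl
    · rw [Polynomial.notMem_support_iff.1 h, h3 0 rfl]
  refine ⟨∑ m ∈ A0.support, Polynomial.monomial m (lift (A0.coeff m)), ?_, ?_, ?_⟩
  · rw [gNorm_le_iff]
    intro n
    rw [hco]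
    exact h1 _
  · ext n
    rw [coeff_redPoly, hco, h2]
  · apply le_antisymm
    · rw [Polynomial.natDegree_le_iff_coeff_eq_zero]
      intro N hN
      rw [hco, Polynomial.coeff_eq_zero_of_natDegree_lt hN, h3 0 rfl]
    · rw [Polynomial.natDegree_le_iff_coeff_eq_zero]
      intro N hN
      have := Polynomial.coeff_eq_zero_of_natDegree_lt hN
      rw [hco] at this
      rw [← h2 (A0.coeff N), this, r.res_zero]

/-- evaluation commutes with reduction -/
theorem res_eval {A : K[X]} (hA : gNorm v A ≤ 1) {a : K} (ha : v a ≤ 1) :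
    v (A.eval a) ≤ 1 ∧ r.res (A.eval a) = (redPoly r A).eval (r.res a) := by
  have hA' : ∀ m, v (A.coeff m) ≤ 1 := fun m => (coeff_le_gNorm v A m).trans hA
  rw [Polynomial.eval_eq_sum_range,
    Polynomial.eval_eq_sum_range' (Nat.lt_succ_of_le (natDegree_redPoly_le r A))]
  have hterm : ∀ i ∈ Finset.range (A.natDegree + 1), v (A.coeff i * a ^ i) ≤ 1 := fun i _ => by
    rw [map_mul]
    exact mul_le_one' (hA' i) (r.ga1_res_pow ha i).1
  obtain ⟨h1, h2⟩ := r.ga1_res_sum _ _ hterm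
  refine ⟨h1, ?_⟩
  rw [h2]
  refine Finset.sum_congr rfl fun i _ => ?_
  rw [r.res_mul (hA' i) (r.ga1_res_pow ha i).1, (r.ga1_res_pow ha i).2, coeff_redPoly]

theorem ga1_gNorm_mul_le (v : Valuation K ℚᵐ⁰) (A B : K[X]) : gNorm v (A * B) ≤ gNorm v A * gNorm v B := by
  rw [gNorm_le_iff]
  intro n
  rw [Polynomial.coeff_mul]
  refine Valuation.map_sum_le v fun x _ => ?_
  rw [map_mul]
  exact mul_le_mul' (coeff_le_gNorm v A _) (coeff_le_gNorm v B _)

include r in
/-- **Gauss lemma** -/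
theorem gNorm_mul (A B : K[X]) : gNorm v (A * B) = gNorm v A * gNorm v B := by
  by_cases hA : A = 0
  · subst hA
    rw [zero_mul, (gNorm_eq_zero_iff v 0).2 rfl, zero_mul]
  by_cases hB : B = 0
  · subst hB
    rw [mul_zero, (gNorm_eq_zero_iff v 0).2 rfl, mul_zero]
  obtain ⟨n, ha, ha0⟩ := exists_coeff_eq_gNorm v hA
  obtain ⟨m, hb, hb0⟩ := exists_coeff_eq_gNorm v hB
  generalize A.coeff n = a at ha ha0
  generalize B.coeff m = b at hb hb0
  have hva : v a ≠ 0 := (Valuation.ne_zero_iff v).2 ha0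
  have hvb : v b ≠ 0 := (Valuation.ne_zero_iff v).2 hb0
  have hA1 : gNorm v (C a⁻¹ * A) = 1 := by
    rw [gNorm_C_mul, ← ha, map_inv₀, inv_mul_cancel₀ hva]
  have hB1 : gNorm v (C b⁻¹ * B) = 1 := by
    rw [gNorm_C_mul, ← hb, map_inv₀, inv_mul_cancel₀ hvb]
  have hrA : redPoly r (C a⁻¹ * A) ≠ 0 := by
    rw [Ne, redPoly_eq_zero_iff r hA1.le, hA1]
    exact lt_irrefl _
  have hrB : redPoly r (C b⁻¹ * B) ≠ 0 := by
    rw [Ne, redPoly_eq_zero_iff r hB1.le, hB1]
    exact lt_irrefl _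
  have hle : gNorm v (C a⁻¹ * A * (C b⁻¹ * B)) ≤ 1 := by
    refine (ga1_gNorm_mul_le v _ _).trans ?_
    rw [hA1, hB1, one_mul]
  have hne : redPoly r (C a⁻¹ * A * (C b⁻¹ * B)) ≠ 0 := by
    rw [redPoly_mul r hA1.le hB1.le]
    exact mul_ne_zero hrA hrB
  rw [Ne, redPoly_eq_zero_iff r hle, not_lt] at hne
  have h1 : gNorm v (C a⁻¹ * A * (C b⁻¹ * B)) = 1 := le_antisymm hle hne
  have e : C a⁻¹ * A * (C b⁻¹ * B) = C (a⁻¹ * b⁻¹) * (A * B) := by
    rw [C_mul]
    ring
  rw [e, gNorm_C_mul, map_mul, map_inv₀, map_inv₀] at h1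
  rw [← ha, ← hb]
  calc gNorm v (A * B) = v a * v b * ((v a)⁻¹ * (v b)⁻¹ * gNorm v (A * B)) := by
        rw [← mul_assoc]
        have : v a * v b * ((v a)⁻¹ * (v b)⁻¹) = 1 := by
          rw [mul_mul_mul_comm, mul_inv_cancel₀ hva, mul_inv_cancel₀ hvb, one_mul]
        rw [this, one_mul]
    _ = v a * v b := by rw [h1, mul_one]

end GNorm

/-! ### GA1b -/
section Coord

variable {K : Type} [Field K]

/-- `x³ + a₂ x² + a₄ x + a₆` -/
noncomputable def wCub (W : WeierstrassCurve K) : K[X] := X ^ 3 + C W.a₂ * X ^ 2 + C W.a₄ * X + C W.a₆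

/-- `a₁ x + a₃` -/
noncomputable def wLin (W : WeierstrassCurve K) : K[X] := C W.a₁ * X + C W.a₃

/-- `(A + B y)(A' + B' y) = wA + wB y` -/
noncomputable def wA (W : WeierstrassCurve K) (A B A' B' : K[X]) : K[X] := A * A' + B * B' * wCub W

noncomputable def wB (W : WeierstrassCurve K) (A B A' B' : K[X]) : K[X] := A * B' + A' * B - B * B' * wLin W

theorem IsWFF.mul_repr {W : WeierstrassCurve K} {M : Type} [Field M] [Algebra K M] {x y : M} (h : IsWFF W M x y)
    (A B A' B' : K[X]) : (aeval x A + aeval x B * y) * (aeval x A' + aeval x B' * y) =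
      aeval x (wA W A B A' B') + aeval x (wB W A B A' B') * y := by
  have e := h.equation
  rw [Affine.equation_iff] at e
  simp only [WeierstrassCurve.baseChange, WeierstrassCurve.map_a₁, WeierstrassCurve.map_a₂,
    WeierstrassCurve.map_a₃, WeierstrassCurve.map_a₄, WeierstrassCurve.map_a₆] at e
  unfold wA wB wCub wLin
  simp only [map_add, map_sub, map_mul, map_pow, aeval_X, aeval_C]
  linear_combination (aeval x B * aeval x B') * e

theorem wCub_coeff (W : WeierstrassCurve K) (n : ℕ) : (wCub W).coeff n =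
    if n = 0 then W.a₆ else if n = 1 then W.a₄ else if n = 2 then W.a₂ else if n = 3 then 1 else 0 := by
  unfold wCub
  simp only [coeff_add, coeff_X_pow, coeff_C_mul, coeff_X, coeff_C]
  rcases n with _ | _ | _ | _ | n <;> simp

theorem wLin_coeff (W : WeierstrassCurve K) (n : ℕ) : (wLin W).coeff n =
    if n = 0 then W.a₃ else if n = 1 then W.a₁ else 0 := by
  unfold wLin
  simp only [coeff_add, coeff_C_mul, coeff_X, coeff_C]
  rcases n with _ | _ | n <;> simp

/-- the norm of `A + B y` -/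
noncomputable def pN (v : Valuation K ℚᵐ⁰) (A B : K[X]) : ℚᵐ⁰ := max (gNorm v A) (gNorm v B)

variable {k : Type} [Field k] {v : Valuation K ℚᵐ⁰} {r : ResMap v k} {Wt : WeierstrassCurve K}
  {W0 : WeierstrassCurve k}

theorem redPoly_wCub (hW : RedCurve v r Wt W0) : gNorm v (wCub Wt) ≤ 1 ∧ redPoly r (wCub Wt) = wCub W0 := by
  obtain ⟨h1, h2, h3, h4, h6⟩ := hW
  constructor
  · rw [gNorm_le_iff]
    intro n
    rw [wCub_coeff]
    split_ifs
    · exact h6.1
    · exact h4.1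
    · exact h2.1
    · rw [map_one]
    · rw [map_zero]; exact zero_le
  · ext n
    rw [coeff_redPoly, wCub_coeff, wCub_coeff]
    split_ifs
    · exact h6.2
    · exact h4.2
    · exact h2.2
    · exact r.res_one
    · exact r.res_zero

theorem redPoly_wLin (hW : RedCurve v r Wt W0) : gNorm v (wLin Wt) ≤ 1 ∧ redPoly r (wLin Wt) = wLin W0 := by
  obtain ⟨h1, h2, h3, h4, h6⟩ := hW
  constructor
  · rw [gNorm_le_iff]
    intro n
    rw [wLin_coeff]
    split_ifs
    · exact h3.1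
    · exact h1.1
    · rw [map_zero]; exact zero_le
  · ext n
    rw [coeff_redPoly, wLin_coeff, wLin_coeff]
    split_ifs
    · exact h3.2
    · exact h1.2
    · exact r.res_zero

/-! helper lemmas on `gNorm`, `redPoly` -/

theorem ga1b_gNorm_neg (v : Valuation K ℚᵐ⁰) (A : K[X]) : gNorm v (-A) = gNorm v A := by
  have e : -A = C (-1 : K) * A := by simp
  rw [e, gNorm_C_mul, Valuation.map_neg, map_one, one_mul]

theorem ga1b_gNorm_sub_le (v : Valuation K ℚᵐ⁰) (A B : K[X]) :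
    gNorm v (A - B) ≤ max (gNorm v A) (gNorm v B) := by
  rw [sub_eq_add_neg, ← ga1b_gNorm_neg v B]
  exact gNorm_add_le v A (-B)

theorem ga1b_gNorm_zero (v : Valuation K ℚᵐ⁰) : gNorm v (0 : K[X]) = 0 := (gNorm_eq_zero_iff v 0).2 rfl

theorem ga1b_gNorm_one (v : Valuation K ℚᵐ⁰) : gNorm v (1 : K[X]) = 1 := by
  rw [← C_1, gNorm_C, map_one]

theorem ga1b_gNorm_mul_le_one (r : ResMap v k) {A B : K[X]} (hA : gNorm v A ≤ 1) (hB : gNorm v B ≤ 1) :
    gNorm v (A * B) ≤ 1 := by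
  rw [gNorm_mul r]
  exact mul_le_one' hA hB

theorem ga1b_gNorm_add_le_one {A B : K[X]} (hA : gNorm v A ≤ 1) (hB : gNorm v B ≤ 1) :
    gNorm v (A + B) ≤ 1 := (gNorm_add_le v A B).trans (max_le hA hB)

theorem ga1b_gNorm_sub_le_one {A B : K[X]} (hA : gNorm v A ≤ 1) (hB : gNorm v B ≤ 1) :
    gNorm v (A - B) ≤ 1 := (ga1b_gNorm_sub_le v A B).trans (max_le hA hB)

theorem ga1b_redPoly_neg (r : ResMap v k) {A : K[X]} (hA : gNorm v A ≤ 1) :
    redPoly r (-A) = - redPoly r A := by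
  ext n
  rw [coeff_redPoly, coeff_neg, coeff_neg, coeff_redPoly,
    r.res_neg ((coeff_le_gNorm v A n).trans hA)]

theorem ga1b_redPoly_sub (r : ResMap v k) {A B : K[X]} (hA : gNorm v A ≤ 1) (hB : gNorm v B ≤ 1) :
    redPoly r (A - B) = redPoly r A - redPoly r B := by
  rw [sub_eq_add_neg, redPoly_add r hA (by rw [ga1b_gNorm_neg]; exact hB), ga1b_redPoly_neg r hB,
    ← sub_eq_add_neg]

theorem ga1b_redPoly_zero (r : ResMap v k) : redPoly r (0 : K[X]) = 0 := by
  ext n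
  rw [coeff_redPoly, coeff_zero, coeff_zero, r.res_zero]

theorem ga1b_redPoly_one (r : ResMap v k) : redPoly r (1 : K[X]) = 1 := by
  ext n
  rw [coeff_redPoly, coeff_one, coeff_one]
  split_ifs
  · exact r.res_one
  · exact r.res_zero

/-! the norm `pN` -/

theorem gNorm_le_pN_left (v : Valuation K ℚᵐ⁰) (A B : K[X]) : gNorm v A ≤ pN v A B := le_max_left _ _

theorem gNorm_le_pN_right (v : Valuation K ℚᵐ⁰) (A B : K[X]) : gNorm v B ≤ pN v A B := le_max_right _ _

theorem pN_eq_zero_iff (v : Valuation K ℚᵐ⁰) (A B : K[X]) : pN v A B = 0 ↔ A = 0 ∧ B = 0 := by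
  unfold pN
  constructor
  · intro h
    have h1 : gNorm v A ≤ 0 := h ▸ le_max_left _ _
    have h2 : gNorm v B ≤ 0 := h ▸ le_max_right _ _
    exact ⟨(gNorm_eq_zero_iff v A).1 (le_antisymm h1 zero_le),
      (gNorm_eq_zero_iff v B).1 (le_antisymm h2 zero_le)⟩
  · rintro ⟨rfl, rfl⟩
    rw [ga1b_gNorm_zero, max_self]

theorem pN_C_mul (v : Valuation K ℚᵐ⁰) (c : K) (A B : K[X]) :
    pN v (C c * A) (C c * B) = v c * pN v A B := by
  unfold pN
  rw [gNorm_C_mul, gNorm_C_mul, mul_max]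

theorem exists_v_eq_pN {A B : K[X]} (h : pN v A B ≠ 0) : ∃ c : K, c ≠ 0 ∧ v c = pN v A B := by
  unfold pN at h ⊢
  rcases le_total (gNorm v A) (gNorm v B) with hl | hl
  · rw [max_eq_right hl] at h ⊢
    obtain ⟨n, hn, hn0⟩ := exists_coeff_eq_gNorm v (A := B) (fun h0 => h ((gNorm_eq_zero_iff v B).2 h0))
    exact ⟨_, hn0, hn⟩
  · rw [max_eq_left hl] at h ⊢
    obtain ⟨n, hn, hn0⟩ := exists_coeff_eq_gNorm v (A := A) (fun h0 => h ((gNorm_eq_zero_iff v A).2 h0))
    exact ⟨_, hn0, hn⟩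

theorem pN_w_le (hW : RedCurve v r Wt W0) (A B A' B' : K[X]) :
    pN v (wA Wt A B A' B') (wB Wt A B A' B') ≤ pN v A B * pN v A' B' := by
  have hc := (redPoly_wCub hW).1
  have hl := (redPoly_wLin hW).1
  have a1 := gNorm_le_pN_left v A B
  have a2 := gNorm_le_pN_right v A B
  have a3 := gNorm_le_pN_left v A' B'
  have a4 := gNorm_le_pN_right v A' B'
  have b1 : gNorm v (A * A') ≤ pN v A B * pN v A' B' := by
    rw [gNorm_mul r]; exact mul_le_mul' a1 a3
  have b2 : gNorm v (B * B' * wCub Wt) ≤ pN v A B * pN v A' B' := by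
    rw [gNorm_mul r, gNorm_mul r]
    calc gNorm v B * gNorm v B' * gNorm v (wCub Wt) ≤ pN v A B * pN v A' B' * 1 :=
          mul_le_mul' (mul_le_mul' a2 a4) hc
      _ = _ := mul_one _
  have b3 : gNorm v (A * B') ≤ pN v A B * pN v A' B' := by
    rw [gNorm_mul r]; exact mul_le_mul' a1 a4
  have b4 : gNorm v (A' * B) ≤ pN v A B * pN v A' B' := by
    rw [gNorm_mul r, mul_comm]; exact mul_le_mul' a2 a3
  have b5 : gNorm v (B * B' * wLin Wt) ≤ pN v A B * pN v A' B' := by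
    rw [gNorm_mul r, gNorm_mul r]
    calc gNorm v B * gNorm v B' * gNorm v (wLin Wt) ≤ pN v A B * pN v A' B' * 1 :=
          mul_le_mul' (mul_le_mul' a2 a4) hl
      _ = _ := mul_one _
  refine max_le ?_ ?_
  · exact (gNorm_add_le v _ _).trans (max_le b1 b2)
  · exact (ga1b_gNorm_sub_le v _ _).trans (max_le ((gNorm_add_le v _ _).trans (max_le b3 b4)) b5)

theorem redPoly_wA (hW : RedCurve v r Wt W0) {A B A' B' : K[X]} (hA : gNorm v A ≤ 1) (hB : gNorm v B ≤ 1)
    (hA' : gNorm v A' ≤ 1) (hB' : gNorm v B' ≤ 1) :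
    redPoly r (wA Wt A B A' B') = wA W0 (redPoly r A) (redPoly r B) (redPoly r A') (redPoly r B') := by
  obtain ⟨hc, hc'⟩ := redPoly_wCub hW
  unfold wA
  rw [redPoly_add r (ga1b_gNorm_mul_le_one r hA hA') (ga1b_gNorm_mul_le_one r (ga1b_gNorm_mul_le_one r hB hB') hc),
    redPoly_mul r hA hA', redPoly_mul r (ga1b_gNorm_mul_le_one r hB hB') hc, redPoly_mul r hB hB', hc']

theorem redPoly_wB (hW : RedCurve v r Wt W0) {A B A' B' : K[X]} (hA : gNorm v A ≤ 1) (hB : gNorm v B ≤ 1)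
    (hA' : gNorm v A' ≤ 1) (hB' : gNorm v B' ≤ 1) :
    redPoly r (wB Wt A B A' B') = wB W0 (redPoly r A) (redPoly r B) (redPoly r A') (redPoly r B') := by
  obtain ⟨hl, hl'⟩ := redPoly_wLin hW
  unfold wB
  rw [ga1b_redPoly_sub r (ga1b_gNorm_add_le_one (ga1b_gNorm_mul_le_one r hA hB') (ga1b_gNorm_mul_le_one r hA' hB))
      (ga1b_gNorm_mul_le_one r (ga1b_gNorm_mul_le_one r hB hB') hl),
    redPoly_add r (ga1b_gNorm_mul_le_one r hA hB') (ga1b_gNorm_mul_le_one r hA' hB),
    redPoly_mul r hA hB', redPoly_mul r hA' hB, redPoly_mul r (ga1b_gNorm_mul_le_one r hB hB') hl,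
    redPoly_mul r hB hB', hl']

/-- the reduction of `A + B y` does not vanish if the norm is `1`. -/
theorem red_ne_zero_of_pN {M0 : Type} [Field M0] [Algebra k M0] {x0 y0 : M0}
    (h0 : IsWFF W0 M0 x0 y0) {A B : K[X]} (h1 : pN v A B = 1) :
    aeval x0 (redPoly r A) + aeval x0 (redPoly r B) * y0 ≠ 0 := by
  intro he
  obtain ⟨e1, e2⟩ := h0.repr_unique he
  have hA : gNorm v A ≤ 1 := h1 ▸ gNorm_le_pN_left v A B
  have hB : gNorm v B ≤ 1 := h1 ▸ gNorm_le_pN_right v A B
  rw [redPoly_eq_zero_iff r hA] at e1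
  rw [redPoly_eq_zero_iff r hB] at e2
  have : pN v A B < 1 := max_lt e1 e2
  exact absurd h1 this.ne

theorem pN_mul_one (hW : RedCurve v r Wt W0) {M0 : Type} [Field M0] [Algebra k M0] {x0 y0 : M0}
    (h0 : IsWFF W0 M0 x0 y0) {A B A' B' : K[X]} (h1 : pN v A B = 1) (h2 : pN v A' B' = 1) :
    pN v (wA Wt A B A' B') (wB Wt A B A' B') = 1 := by
  have hle : pN v (wA Wt A B A' B') (wB Wt A B A' B') ≤ 1 := by
    have := pN_w_le hW A B A' B'
    rwa [h1, h2, one_mul] at this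
  refine le_antisymm hle (not_lt.1 fun hlt => ?_)
  have hA : gNorm v A ≤ 1 := h1 ▸ gNorm_le_pN_left v A B
  have hB : gNorm v B ≤ 1 := h1 ▸ gNorm_le_pN_right v A B
  have hA' : gNorm v A' ≤ 1 := h2 ▸ gNorm_le_pN_left v A' B'
  have hB' : gNorm v B' ≤ 1 := h2 ▸ gNorm_le_pN_right v A' B'
  have l1 : gNorm v (wA Wt A B A' B') < 1 := lt_of_le_of_lt (gNorm_le_pN_left v _ _) hlt
  have l2 : gNorm v (wB Wt A B A' B') < 1 := lt_of_le_of_lt (gNorm_le_pN_right v _ _) hlt
  have z1 := (redPoly_eq_zero_iff r l1.le).2 l1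
  have z2 := (redPoly_eq_zero_iff r l2.le).2 l2
  rw [redPoly_wA hW hA hB hA' hB'] at z1
  rw [redPoly_wB hW hA hB hA' hB'] at z2
  have hm := h0.mul_repr (redPoly r A) (redPoly r B) (redPoly r A') (redPoly r B')
  rw [z1, z2, map_zero, zero_mul, add_zero] at hm
  rcases mul_eq_zero.1 hm with h | h
  · exact red_ne_zero_of_pN h0 h1 h
  · exact red_ne_zero_of_pN h0 h2 h

theorem wA_C_mul (W : WeierstrassCurve K) (c c' : K) (A B A' B' : K[X]) :
    wA W (C c * A) (C c * B) (C c' * A') (C c' * B') = C (c * c') * wA W A B A' B' := by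
  unfold wA
  rw [C_mul]
  ring

theorem wB_C_mul (W : WeierstrassCurve K) (c c' : K) (A B A' B' : K[X]) :
    wB W (C c * A) (C c * B) (C c' * A') (C c' * B') = C (c * c') * wB W A B A' B' := by
  unfold wB
  rw [C_mul]
  ring

/-- **multiplicativity of the norm on the coordinate ring** -/
theorem pN_mul (hW : RedCurve v r Wt W0) {M0 : Type} [Field M0] [Algebra k M0] {x0 y0 : M0}
    (h0 : IsWFF W0 M0 x0 y0) (A B A' B' : K[X]) :
    pN v (wA Wt A B A' B') (wB Wt A B A' B') = pN v A B * pN v A' B' := by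
  by_cases z1 : pN v A B = 0
  · obtain ⟨rfl, rfl⟩ := (pN_eq_zero_iff v A B).1 z1
    rw [z1, zero_mul, pN_eq_zero_iff]
    unfold wA wB
    constructor <;> ring
  by_cases z2 : pN v A' B' = 0
  · obtain ⟨rfl, rfl⟩ := (pN_eq_zero_iff v A' B').1 z2
    rw [z2, mul_zero, pN_eq_zero_iff]
    unfold wA wB
    constructor <;> ring
  obtain ⟨c, hc0, hc⟩ := exists_v_eq_pN z1
  obtain ⟨c', hc0', hc'⟩ := exists_v_eq_pN z2
  have hvc : v c ≠ 0 := (Valuation.ne_zero_iff v).2 hc0
  have hvc' : v c' ≠ 0 := (Valuation.ne_zero_iff v).2 hc0'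
  have eA : ∀ P : K[X], C c * (C c⁻¹ * P) = P := fun P => by
    rw [← mul_assoc, ← C_mul, mul_inv_cancel₀ hc0, C_1, one_mul]
  have eA' : ∀ P : K[X], C c' * (C c'⁻¹ * P) = P := fun P => by
    rw [← mul_assoc, ← C_mul, mul_inv_cancel₀ hc0', C_1, one_mul]
  have n1 : pN v (C c⁻¹ * A) (C c⁻¹ * B) = 1 := by
    rw [pN_C_mul, ← hc, map_inv₀, inv_mul_cancel₀ hvc]
  have n2 : pN v (C c'⁻¹ * A') (C c'⁻¹ * B') = 1 := by
    rw [pN_C_mul, ← hc', map_inv₀, inv_mul_cancel₀ hvc']
  have key := pN_mul_one hW h0 n1 n2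
  have e1 := wA_C_mul Wt c c' (C c⁻¹ * A) (C c⁻¹ * B) (C c'⁻¹ * A') (C c'⁻¹ * B')
  have e2 := wB_C_mul Wt c c' (C c⁻¹ * A) (C c⁻¹ * B) (C c'⁻¹ * A') (C c'⁻¹ * B')
  rw [eA, eA, eA', eA'] at e1 e2
  rw [e1, e2, pN_C_mul, key, mul_one, map_mul, hc, hc']

end Coord

end Claimed.Agent.R280
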