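import Claimed.Agent.R280.Gauss.TwPlaces
import Claimed.Agent.R280.Tw.Red

/-!
# Row 280, Gauss package GA4 `Perms`: reduction of points is equivariant; the permutations of the polarisation points and of the labels

PLAN.
* (PROVED in Tw/Red.lean, with `RedPt.add/neg/sub/nsmul`) `RedPt.unique`: case analysis.   `RedPt.toA` : `RedPt v r Q Qb ↔ RedPtA v.valuationSubring r.toHom Q Qb` (`resA` vs `ResMap.res`, `1 < v a ↔ a ∉ A`), so Ell8 applies
  (`r.ker` gives the hypothesis `hr`).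
* `redPt_map`: `σ_val`, `σ_res` on the coordinates (`Affine.Point.map` on `.some`).
* `redPt_twAct`: `RedPtA.add`, `RedPtA.neg` for the curve `Wt.baseChange L1` reducing to `W0.baseChange S`, `red_Q`.
* `d_inj`, `ξ_inj`, `ξ_ne_d`: equal points have equal reductions (`RedPt.unique`), `db_inj`, `t_inj`, `t_d`.
* `exists_perm_d`: `j ↦ j'` from `d_stable` is injective (`twAct` is injective, `d_inj`), hence a permutation of the finite type; its reduction property by `redPt_twAct`, `RedPt.unique`.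
~600 lines.   Owner of the statements: helper66.
-/

set_option autoImplicit false

namespace Claimed.Agent.R280

open WithZero WeierstrassCurve
open scoped Classical

namespace FldBase

variable {p : ℕ} [Fact p.Prime] {L : Type} [Field L] (B : FldBase p L)

theorem redPt_map {R : (B.Wt.baseChange B.L1).toAffine.Point} {Rb : (B.R.W0.baseChange B.R.S).toAffine.Point}
    (h : RedPt B.vL1 B.rL1 R Rb) :
    RedPt B.vL1 B.rL1 (Affine.Point.map (W' := B.Wt.toAffine) B.σ.toAlgHom R)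
      (Affine.Point.map (W' := B.R.W0.toAffine) B.R.σb.toAlgHom Rb) := by
  rcases R with _ | ⟨a, b, hab⟩ <;> rcases Rb with _ | ⟨a', b', hab'⟩
  · trivial
  · exact h.elim
  · show 1 < B.vL1 (B.σ a)
    rw [B.σ_val]
    exact h
  · obtain ⟨h1, h2, h3, h4⟩ := h
    show B.vL1 (B.σ a) ≤ 1 ∧ B.vL1 (B.σ b) ≤ 1 ∧ B.rL1.res (B.σ a) = B.R.σb a' ∧
      B.rL1.res (B.σ b) = B.R.σb b'
    rw [B.σ_val, B.σ_val, B.σ_res a h1, B.σ_res b h2, h3, h4]
    exact ⟨h1, h2, rfl, rfl⟩

/-- the base-changed curve reduces to the base-changed curve. -/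
theorem ga4_redCurve1 : RedCurve B.vL1 B.rL1 (B.Wt.baseChange B.L1) (B.R.W0.baseChange B.R.S) := by
  obtain ⟨h1, h2, h3, h4, h6⟩ := B.red_W
  have key : ∀ (a : L) (a' : B.R.F), B.vL a ≤ 1 ∧ B.rL.res a = a' →
      B.vL1 (algebraMap L B.L1 a) ≤ 1 ∧ B.rL1.res (algebraMap L B.L1 a) = algebraMap B.R.F B.R.S a' := by
    rintro a a' ⟨ha, rfl⟩
    exact ⟨by rw [B.ext1 a]; exact ha, B.rext1 a ha⟩
  exact ⟨key _ _ h1, key _ _ h2, key _ _ h3, key _ _ h4, key _ _ h6⟩

theorem ga4_disc1 : (B.R.W0.baseChange B.R.S).Δ ≠ 0 := by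
  show (B.R.W0.map (algebraMap B.R.F B.R.S)).Δ ≠ 0
  rw [WeierstrassCurve.map_Δ]
  exact (map_ne_zero _).2 B.R.hΔ

theorem redPt_twAct {R : (B.Wt.baseChange B.L1).toAffine.Point} {Rb : (B.R.W0.baseChange B.R.S).toAffine.Point}
    (h : RedPt B.vL1 B.rL1 R Rb) : RedPt B.vL1 B.rL1 (twAct B.σ B.Q R) (twAct B.R.σb B.R.Qb Rb) := by
  unfold twAct
  exact RedPt.sub B.ga4_redCurve1 B.ga4_disc1 (B.redPt_map h) B.red_Q

theorem d_inj : Function.Injective B.d := by
  intro j j' h
  apply B.R.db_inj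
  have h1 := B.red_d j
  rw [h] at h1
  exact h1.unique (B.red_d j')

theorem ξ_inj : Function.Injective B.ξ := by
  intro i i' h
  apply B.R.t_inj
  have h1 := B.red_ξ i
  rw [h] at h1
  exact h1.unique (B.red_ξ i')

theorem ξ_ne_d (i : B.R.I) (j : B.R.Dn) : B.ξ i ≠ B.d j := by
  intro h
  apply B.R.t_d i j
  have h1 := B.red_ξ i
  rw [h] at h1
  exact h1.unique (B.red_d j)

theorem ga4_twAct_inj : Function.Injective (twAct B.σ B.Q) := by
  intro R R' h
  unfold twAct at h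
  exact Affine.Point.map_injective _ (sub_left_injective h)

/-- abstract form of the two permutation statements. -/
theorem ga4_exists_perm {ι : Type} [Fintype ι] (e : ι → (B.Wt.baseChange B.L1).toAffine.Point)
    (eb : ι → (B.R.W0.baseChange B.R.S).toAffine.Point) (he : Function.Injective e)
    (hred : ∀ j, RedPt B.vL1 B.rL1 (e j) (eb j))
    (hst : ∀ j, ∃ j', e j' = twAct B.σ B.Q (e j)) :
    ∃ π : Equiv.Perm ι, (∀ j, e (π j) = twAct B.σ B.Q (e j)) ∧
      ∀ j, eb (π j) = twAct B.R.σb B.R.Qb (eb j) := by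
  choose f hf using hst
  have hinj : Function.Injective f := by
    intro j j' h
    apply he
    apply B.ga4_twAct_inj
    rw [← hf j, ← hf j', h]
  refine ⟨Equiv.ofBijective f (Finite.injective_iff_bijective.1 hinj), hf, fun j => ?_⟩
  have h1 := hred (f j)
  rw [hf j] at h1
  exact h1.unique (B.redPt_twAct (hred j))

theorem exists_perm_d : ∃ π : Equiv.Perm B.R.Dn, (∀ j, B.d (π j) = twAct B.σ B.Q (B.d j)) ∧
    ∀ j, B.R.db (π j) = twAct B.R.σb B.R.Qb (B.R.db j) :=
  B.ga4_exists_perm B.d B.R.db B.d_inj B.red_d B.d_stable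

theorem exists_perm_ξ : ∃ π : Equiv.Perm B.R.I, (∀ i, B.ξ (π i) = twAct B.σ B.Q (B.ξ i)) ∧
    ∀ i, B.R.t (π i) = twAct B.R.σb B.R.Qb (B.R.t i) :=
  B.ga4_exists_perm B.ξ B.R.t B.ξ_inj B.red_ξ B.ξ_stable

end FldBase

end Claimed.Agent.R280
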