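import Claimed.Agent.R280.Gauss.Val
import Claimed.Agent.R280.Tw.Red

/-!
# Row 280, Gauss package GA5 `RedUp`: reduction of integral sections on the split level  (replaces the integral model / `Proj` in [S] §7.1)

General: `K` valued with residue field `k`, `Wt → W0` good reduction, `M = K(x,y)`, `M0 = k(x0,y0)`, `g` the Gauss valuation.
`d : Dn → Wt(K)` a finite SYMMETRIC set of points containing `O` with INJECTIVE reductions `db`; labels `ξ i ↦ t i`, `t` injective, `t i ∉ db`.
RESULT: `b ∈ L(2j ∑ [d] - ∑_{A'} [ξ_i])`, `|b| ≤ 1`  ⟹  `res b ∈ L(2j ∑ [db] - ∑_{A'} [t_i])`.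

PLAN.  `hfun := ∏_{d j' ≠ O} (x - x(d j'))`, `hfun0 := ∏_{db j' ≠ O} (x0 - x(db j'))`, `nD = |Dn|`.
* `div_x_sub`: for an affine point `R = (a,b)`: `x - a` has value `exp(-1)` at `R` and `-R` if `R ≠ -R`, `exp(-2)` at `R = -R` (`IsWFF.unif_x/unif_y`), `exp 2` at infinity (`inf_spec`) and `1` elsewhere
  (if `v(x - a) < 1` then `(y - b)(y - b') = ` a polynomial in `x` vanishing at `a`, so the place is at `(a,b)` or `(a,b')`).
* `v_hfun`: by symmetry and injectivity of `d`: `v_P hfun = exp(-2)` at `P = pd j'`, `d j' ≠ O`; `exp (2 (nD - 1))` at infinity; `1` elsewhere.  Same for `hfun0` (`db` is symmetric by `RedPtA.neg`/direct, contains `O`).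
* `hfun` is monic in `x` with integral coefficients (`x(d j')` is integral because `db j' ≠ O`), so `g.v1 hfun = 1`, `res hfun = hfun0` (`v_poly`, `res_poly`).
* `f := b hfun^j ∈ L(2 j nD ∞)`, so `f = A(x) + B(x) y` with degree bounds (`IsWFF.mem_LSp_inf_iff`); `g.v1 f ≤ 1` gives `|A|, |B| ≤ 1`; `res f = Ā(x0) + B̄(x0) y0 ∈ L(2 j nD ∞)` (degrees do not grow).
* `f` vanishes at `ξ_i = (α,β)`: `A(α) + B(α) β = 0` (`IsWFF.eval_at`); reduce: `Ā(ᾱ) + B̄(ᾱ) β̄ = 0`, so `res f` vanishes at `t_i` (`eval_at`).  `hfun0` is a unit at `t_i` (`t i ≠ db j'`).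
* `res b = res f / hfun0^j`; collect the orders place by place.
~1400 lines.   Owner of the statements: helper66.
-/

set_option autoImplicit false

namespace Claimed.Agent.R280

open WithZero WeierstrassCurve Polynomial
open scoped Classical

section

variable {k M : Type} [Field k] [Field M] [Algebra k M] {W : WeierstrassCurve k} {x y : M}

/-- the divisor of `x - a` -/
theorem IsWFF.v_x_sub (h : IsWFF W M x y) (hΔ : W.Δ ≠ 0) {a b : k} (hab : W.toAffine.Equation a b) (P : Place k M) :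
    (P.IsInf x → P.v (x - algebraMap k M a) = exp 2) ∧
    (¬ P.IsInf x → ¬ P.IsAtXY x y a b → ¬ P.IsAtXY x y a (W.toAffine.negY a b) → P.v (x - algebraMap k M a) = 1) ∧
    (P.IsAtXY x y a b ∨ P.IsAtXY x y a (W.toAffine.negY a b) →
      P.v (x - algebraMap k M a) = if b = W.toAffine.negY a b then exp (-2) else exp (-1)) := by
  refine ⟨fun hP => h.ell4a_v_x_sub_inf hP a, fun hP h1 h2 => ?_, fun hP => ?_⟩
  · rw [h.v_x_sub_fin hΔ hP hab, atVal, atVal, if_neg h1, if_neg h2, one_mul]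
  · have hfin : ¬ P.IsInf x := by
      rcases hP with hP | hP <;> exact Place.ell4a_not_inf hP
    rw [h.v_x_sub_fin hΔ hfin hab, atVal, atVal]
    split_ifs with h1 h2 h3 h3 h2 h3 h3
    · rw [← exp_add]; norm_num
    · exfalso
      apply h3
      have e := h.atPt_inj (Q := Affine.Point.some a b
          ((Affine.equation_iff_nonsingular_of_Δ_ne_zero hΔ).1 hab))
        (Q' := Affine.Point.some a (W.toAffine.negY a b)
          ((Affine.equation_iff_nonsingular_of_Δ_ne_zero hΔ).1 ((Affine.equation_neg a b).2 hab)))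
        h2 h1
      simpa using e
    · exact absurd (h3 ▸ h1) h2
    · rw [mul_one]
    · exact absurd (by rw [← h3]; exact h2) h1
    · rw [one_mul]
    · rcases hP with hP | hP
      · exact absurd hP h2
      · exact absurd hP h1
    · rcases hP with hP | hP
      · exact absurd hP h2
      · exact absurd hP h1

/-- `hfun = ∏_{d j ≠ O} (x - x(d j))` -/
noncomputable def hfun {Dn : Type} [Fintype Dn] (x : M) (d : Dn → W.toAffine.Point) : M :=
  ∏ j ∈ Finset.univ.filter (fun j => d j ≠ 0), (x - algebraMap k M (ptX (d j)))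

theorem ga5_exp_sum {ι : Type} (s : Finset ι) (f : ι → ℤ) :
    (exp (∑ i ∈ s, f i) : ℤᵐ⁰) = ∏ i ∈ s, exp (f i) := by
  induction s using Finset.induction_on with
  | empty => simp
  | insert a s ha ih => rw [Finset.sum_insert ha, Finset.prod_insert ha, exp_add, ih]

/-- local factor of a point at the place `P` -/
noncomputable def ga5AtValPt (P : Place k M) (x y : M) : W.toAffine.Point → ℤᵐ⁰
  | .zero => 1
  | .some a b _ => atVal P x y a b

/-- generates the equation lemmas of `ga5AtValPt` in this file (rule 6: unique names) -/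
theorem ga5_eqns_cite : True := by
  have := @ga5AtValPt.eq_1
  have := @ga5AtValPt.eq_2
  have := @ga5AtValPt.eq_def
  trivial

theorem IsWFF.ga5_v_x_sub_pt (h : IsWFF W M x y) (hΔ : W.Δ ≠ 0) {P : Place k M} (hP : ¬ P.IsInf x)
    {Q : W.toAffine.Point} (hQ : Q ≠ 0) :
    P.v (x - algebraMap k M (ptX Q)) = ga5AtValPt P x y (-Q) * ga5AtValPt P x y Q := by
  rcases Q with _ | ⟨a, b, hab⟩
  · exact absurd rfl hQ
  · rw [Affine.Point.neg_some]
    exact h.v_x_sub_fin hΔ hP hab.1

theorem IsWFF.ga5_atValPt (h : IsWFF W M x y) (hΔ : W.Δ ≠ 0) {P : Place k M} (hP : ¬ P.IsInf x)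
    {Q : W.toAffine.Point} {pQ : Place k M} (hpQ : pQ.IsAtPt x y Q) :
    ga5AtValPt P x y Q = exp (-(Finsupp.single pQ (1 : ℤ) P)) := by
  rcases Q with _ | ⟨a, b, hab⟩
  · have hne : pQ ≠ P := fun e => hP (e ▸ hpQ)
    simp [ga5AtValPt, hne]
  · exact h.ell4a_atVal hΔ hpQ P

theorem Place.ga5_isInf_iff {P : Place k M} {Q : W.toAffine.Point} (hP : P.IsAtPt x y Q) :
    P.IsInf x ↔ Q = 0 := by
  rcases Q with _ | ⟨a, b, hab⟩
  · exact ⟨fun _ => rfl, fun _ => hP⟩
  · constructor
    · intro h1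
      exact absurd h1 (Place.ell4a_not_inf hP)
    · intro h1
      exact absurd h1 (by simp)

/-- the divisor of `hfun` is `2 ∑ [d j] - 2 |Dn| [O]` -/
theorem IsWFF.v_hfun (h : IsWFF W M x y) (hΔ : W.Δ ≠ 0) {Dn : Type} [Fintype Dn] (d : Dn → W.toAffine.Point)
    (d_inj : Function.Injective d) (d_zero : ∃ j, d j = 0) (d_neg : ∀ j, ∃ j', d j' = - d j)
    (pd : Dn → Place k M) (hpd : ∀ j, (pd j).IsAtPt x y (d j)) (P : Place k M) :
    P.v (hfun x d) = exp (-(2 • ∑ j, Finsupp.single (pd j) (1 : ℤ)) P + if P.IsInf x then 2 * Fintype.card Dn else 0) := by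
  have hsum : (2 • ∑ j, Finsupp.single (pd j) (1 : ℤ)) P = 2 * ∑ j, Finsupp.single (pd j) (1 : ℤ) P := by
    rw [Finsupp.smul_apply, Finsupp.finsetSum_apply, nsmul_eq_mul]
    norm_num
  rw [hsum, hfun, map_prod]
  split_ifs with hP
  · -- the place at infinity
    obtain ⟨j₀, hj₀⟩ := d_zero
    have h1 : ∀ j, Finsupp.single (pd j) (1 : ℤ) P = if j = j₀ then 1 else 0 := by
      intro j
      split_ifs with hj
      · have : pd j = P := h.existsUnique_inf.unique
          ((Place.ga5_isInf_iff (hpd j)).2 (hj ▸ hj₀)) hP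
        rw [this, Finsupp.single_eq_same]
      · have hne : pd j ≠ P := by
          intro e
          have h2 := (Place.ga5_isInf_iff (hpd j)).1 (e ▸ hP)
          exact hj (d_inj (h2.trans hj₀.symm))
        simp [hne]
    have h2 : Finset.univ.filter (fun j => d j ≠ 0) = Finset.univ.erase j₀ := by
      ext j
      simp only [Finset.mem_filter, Finset.mem_univ, true_and, Finset.mem_erase, and_true]
      constructor
      · intro h3 e
        exact h3 (e ▸ hj₀)
      · intro h3 e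
        exact h3 (d_inj (e.trans hj₀.symm))
    rw [Finset.prod_congr rfl (fun j _ => h.ell4a_v_x_sub_inf hP _), Finset.prod_const, h2,
      Finset.card_erase_of_mem (Finset.mem_univ _), Finset.card_univ, ← exp_nsmul]
    simp only [h1, Finset.sum_ite_eq', Finset.mem_univ, if_true]
    congr 1
    have h3 : 1 ≤ Fintype.card Dn := Fintype.card_pos_iff.2 ⟨j₀⟩
    rw [nsmul_eq_mul, Nat.cast_sub h3]
    push_cast
    ring
  · -- finite places
    choose σ hσ using d_neg
    have hσb : Function.Bijective σ := by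
      rw [← Finite.injective_iff_bijective]
      intro j j' e
      have h1 : - d j = - d j' := by rw [← hσ j, ← hσ j', e]
      exact d_inj (neg_injective h1)
    have h1 : ∏ j ∈ Finset.univ.filter (fun j => d j ≠ 0), P.v (x - algebraMap k M (ptX (d j))) =
        ∏ j, ga5AtValPt P x y (-(d j)) * ga5AtValPt P x y (d j) := by
      rw [Finset.prod_congr rfl (fun j hj => h.ga5_v_x_sub_pt hΔ hP (Finset.mem_filter.1 hj).2)]
      refine Finset.prod_subset (Finset.filter_subset _ _) fun j _ hj => ?_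
      have h2 : d j = 0 := by
        by_contra h3
        exact hj (Finset.mem_filter.2 ⟨Finset.mem_univ _, h3⟩)
      rw [h2, neg_zero]
      simp [ga5AtValPt]
    have h2 : ∏ j, ga5AtValPt P x y (-(d j)) = ∏ j, ga5AtValPt P x y (d j) := by
      rw [← hσb.prod_comp (fun j => ga5AtValPt P x y (d j))]
      exact Finset.prod_congr rfl fun j _ => by rw [hσ j]
    rw [h1, Finset.prod_mul_distrib, h2,
      Finset.prod_congr rfl (fun j _ => h.ga5_atValPt hΔ hP (hpd j)), ← ga5_exp_sum, ← exp_add]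
    congr 1
    rw [Finset.sum_neg_distrib]
    ring

end

section

variable {K k : Type} [Field K] [Field k] {v : Valuation K ℚᵐ⁰} {r : ResMap v k} {M M0 : Type} [Field M] [Field M0]
  [Algebra K M] [Algebra k M0] {x y : M} {x0 y0 : M0} {Wt : WeierstrassCurve K} {W0 : WeierstrassCurve k}

theorem ResMap.ga5_res_prod (r : ResMap v k) {ι : Type} (s : Finset ι) (f : ι → K)
    (hf : ∀ i ∈ s, v (f i) ≤ 1) :
    v (∏ i ∈ s, f i) ≤ 1 ∧ r.res (∏ i ∈ s, f i) = ∏ i ∈ s, r.res (f i) := by
  induction s using Finset.induction_on with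
  | empty => simp [r.res_one]
  | insert a s ha ih =>
    obtain ⟨h1, h2⟩ := ih fun i hi => hf i (Finset.mem_insert_of_mem hi)
    have h3 := hf a (Finset.mem_insert_self _ _)
    rw [Finset.prod_insert ha, Finset.prod_insert ha, r.res_mul h3 h1, h2, map_mul]
    exact ⟨mul_le_one' h3 h1, rfl⟩

theorem ResMap.ga5_res_pow (r : ResMap v k) {a : K} (ha : v a ≤ 1) (n : ℕ) :
    v (a ^ n) ≤ 1 ∧ r.res (a ^ n) = r.res a ^ n := by
  have h1 := r.ga5_res_prod (Finset.range n) (fun _ => a) (fun _ _ => ha)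
  simpa using h1

theorem ga5_redPoly_X_sub_C (r : ResMap v k) {a : K} (ha : v a ≤ 1) :
    gNorm v (X - C a) = 1 ∧ redPoly r (X - C a) = X - C (r.res a) := by
  constructor
  · refine gNorm_of_monic v (monic_X_sub_C a) fun n => ?_
    rw [coeff_sub, coeff_X, coeff_C]
    split_ifs with h1 h2 h2
    · omega
    · simp
    · simpa using ha
    · simp
  · ext n
    rw [coeff_redPoly, coeff_sub, coeff_sub, coeff_X, coeff_X, coeff_C, coeff_C]
    split_ifs with h1 h2 h2
    · omega
    · simp [r.res_one]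
    · simp [r.res_neg ha]
    · simp [r.res_zero]

theorem GaussVal.ga5_res_x_sub (g : GaussVal v r M M0 x y x0 y0) {a : K} (ha : v a ≤ 1) :
    g.v1 (x - algebraMap K M a) = 1 ∧
      g.r1.res (x - algebraMap K M a) = x0 - algebraMap k M0 (r.res a) := by
  obtain ⟨h1, h2⟩ := ga5_redPoly_X_sub_C r ha
  have h3 : gNorm v (0 : K[X]) = 0 := (gNorm_eq_zero_iff v 0).2 rfl
  have h4 : redPoly r (0 : K[X]) = 0 := by simp [redPoly]
  have e : x - algebraMap K M a = aeval x (X - C a) + aeval x (0 : K[X]) * y := by simp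
  rw [e]
  constructor
  · rw [g.v_poly, h1, h3]
    simp
  · rw [g.res_poly _ _ h1.le (by rw [h3]; exact zero_le), h2, h4]
    simp

theorem ga5_zero_iff {Dn : Type} {d : Dn → Wt.toAffine.Point} {db : Dn → W0.toAffine.Point}
    (hred : ∀ j, RedPt v r (d j) (db j)) (db_inj : Function.Injective db)
    (d_zero : ∃ j, d j = 0) (j : Dn) : d j = 0 ↔ db j = 0 := by
  have key : ∀ j, d j = 0 → db j = 0 := by
    intro j hj
    have h1 := hred j
    rw [hj] at h1
    exact RedPt.unique h1 RedPt.zero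
  refine ⟨key j, fun hj => ?_⟩
  obtain ⟨j₀, hj₀⟩ := d_zero
  have : j = j₀ := db_inj (hj.trans (key j₀ hj₀).symm)
  rw [this, hj₀]

theorem ga5_ptX_red {Q : Wt.toAffine.Point} {Qb : W0.toAffine.Point} (h : RedPt v r Q Qb)
    (hQb : Qb ≠ 0) : v (ptX Q) ≤ 1 ∧ r.res (ptX Q) = ptX Qb := by
  rcases Q with _ | ⟨a, b, hab⟩ <;> rcases Qb with _ | ⟨a', b', hab'⟩
  · exact absurd rfl hQb
  · exact h.elim
  · exact absurd rfl hQb
  · exact ⟨h.1, h.2.2.1⟩

theorem GaussVal.res_hfun (g : GaussVal v r M M0 x y x0 y0) {Dn : Type} [Fintype Dn] (d : Dn → Wt.toAffine.Point)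
    (db : Dn → W0.toAffine.Point) (hred : ∀ j, RedPt v r (d j) (db j)) (db_inj : Function.Injective db)
    (d_zero : ∃ j, d j = 0) : g.v1 (hfun x d) = 1 ∧ g.r1.res (hfun x d) = hfun x0 db := by
  have hz := ga5_zero_iff hred db_inj d_zero
  have hfac : ∀ j ∈ Finset.univ.filter (fun j => d j ≠ 0),
      g.v1 (x - algebraMap K M (ptX (d j))) = 1 ∧
        g.r1.res (x - algebraMap K M (ptX (d j))) = x0 - algebraMap k M0 (ptX (db j)) := by
    intro j hj
    have h1 : db j ≠ 0 := fun e => (Finset.mem_filter.1 hj).2 ((hz j).2 e)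
    obtain ⟨h2, h3⟩ := ga5_ptX_red (hred j) h1
    rw [← h3]
    exact g.ga5_res_x_sub h2
  constructor
  · rw [hfun, map_prod]
    exact Finset.prod_eq_one fun j hj => (hfac j hj).1
  · rw [hfun, hfun, (g.r1.ga5_res_prod _ _ fun j hj => (hfac j hj).1.le).2]
    have hfil : Finset.univ.filter (fun j => db j ≠ 0) = Finset.univ.filter (fun j => d j ≠ 0) :=
      Finset.filter_congr fun j _ => not_congr (hz j).symm
    rw [hfil]
    exact Finset.prod_congr rfl fun j hj => (hfac j hj).2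

theorem ga5_key_le {k' M' : Type} [Field k'] [Field M'] [Algebra k' M'] {P : Place k' M'}
    {b H : M'} {S T c : ℤ} {j : ℕ} (hb : P.v b ≤ exp ((j : ℤ) * S - T)) (hH : P.v H = exp (-S + c)) :
    P.v (b * H ^ j) ≤ exp (-T + j * c) := by
  rw [map_mul, map_pow, hH, ← exp_nsmul]
  calc P.v b * exp (j • (-S + c)) ≤ exp ((j : ℤ) * S - T) * exp (j • (-S + c)) :=
        mul_le_mul_left hb _
    _ = exp (-T + j * c) := by
        rw [← exp_add]
        congr 1
        rw [nsmul_eq_mul]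
        ring

theorem ga5_key_le' {k' M' : Type} [Field k'] [Field M'] [Algebra k' M'] {P : Place k' M'}
    {b H : M'} {S T c : ℤ} {j : ℕ} (hf : P.v (b * H ^ j) ≤ exp (-T + j * c))
    (hH : P.v H = exp (-S + c)) : P.v b ≤ exp ((j : ℤ) * S - T) := by
  rw [map_mul, map_pow, hH, ← exp_nsmul, ← le_div_iff₀ exp_pos, ← exp_sub] at hf
  refine hf.trans (le_of_eq ?_)
  congr 1
  rw [nsmul_eq_mul]
  ring

theorem ga5_sum_single_nonneg {k' M' I : Type} [Field k'] [Field M'] [Algebra k' M']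
    (A' : Finset I) (q : I → Place k' M') (P : Place k' M') :
    0 ≤ (∑ i ∈ A', Finsupp.single (q i) (1 : ℤ)) P := by
  rw [Finsupp.finsetSum_apply]
  refine Finset.sum_nonneg fun i _ => ?_
  rw [Finsupp.single_apply]
  split_ifs <;> norm_num

theorem ga5_one_le_sum_single {k' M' I : Type} [Field k'] [Field M'] [Algebra k' M']
    (A' : Finset I) (q : I → Place k' M') {i : I} (hi : i ∈ A') :
    1 ≤ (∑ i ∈ A', Finsupp.single (q i) (1 : ℤ)) (q i) := by
  rw [Finsupp.finsetSum_apply]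
  have h1 := Finset.single_le_sum (f := fun i' => Finsupp.single (q i') (1 : ℤ) (q i))
    (fun i' _ => by
      show 0 ≤ Finsupp.single (q i') (1 : ℤ) (q i)
      rw [Finsupp.single_apply]
      split_ifs <;> norm_num) hi
  simpa using h1

theorem ga5_sum_single_eq_one {k' M' I : Type} [Field k'] [Field M'] [Algebra k' M']
    (A' : Finset I) (q : I → Place k' M') (hq : Function.Injective q) {i : I} (hi : i ∈ A') :
    (∑ i ∈ A', Finsupp.single (q i) (1 : ℤ)) (q i) = 1 := by
  rw [Finsupp.finsetSum_apply, Finset.sum_eq_single i]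
  · simp
  · intro i' _ hne
    rw [Finsupp.single_apply, if_neg fun e => hne (hq e)]
  · intro h1
    exact absurd hi h1

theorem ga5_sum_single_eq_zero {k' M' I : Type} [Field k'] [Field M'] [Algebra k' M']
    (A' : Finset I) (q : I → Place k' M') {P : Place k' M'} (hP : ∀ i ∈ A', q i ≠ P) :
    (∑ i ∈ A', Finsupp.single (q i) (1 : ℤ)) P = 0 := by
  rw [Finsupp.finsetSum_apply]
  refine Finset.sum_eq_zero fun i hi => ?_
  rw [Finsupp.single_apply, if_neg (hP i hi)]

/-- vanishing at a point passes to the reduction -/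
theorem ga5_vanish (h : IsWFF Wt M x y) (h0 : IsWFF W0 M0 x0 y0) {Q : Wt.toAffine.Point}
    {Qb : W0.toAffine.Point} (hred : RedPt v r Q Qb) (hQb : Qb ≠ 0) {pQ : Place K M}
    (hpQ : pQ.IsAtPt x y Q) {pQb : Place k M0} (hpQb : pQb.IsAtPt x0 y0 Qb) {A B : K[X]}
    (hA : gNorm v A ≤ 1) (hB : gNorm v B ≤ 1) (hvan : pQ.v (aeval x A + aeval x B * y) < 1) :
    pQb.v (aeval x0 (redPoly r A) + aeval x0 (redPoly r B) * y0) < 1 := by
  rcases Q with _ | ⟨α, β, hαβ⟩ <;> rcases Qb with _ | ⟨α', β', hαβ'⟩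
  · exact absurd rfl hQb
  · exact hred.elim
  · exact absurd rfl hQb
  · obtain ⟨hα, hβ, rα, rβ⟩ := hred
    have h1 := (h.v_lt_one_iff_eval hpQ A B).1 hvan
    obtain ⟨hA1, hA2⟩ := res_eval r hA hα
    obtain ⟨hB1, hB2⟩ := res_eval r hB hα
    rw [h0.v_lt_one_iff_eval hpQb]
    have h2 : r.res (A.eval α + B.eval α * β) = 0 := by rw [h1, r.res_zero]
    rw [r.res_add hA1 (by rw [map_mul]; exact mul_le_one' hB1 hβ), r.res_mul hB1 hβ, hA2, hB2, rα,
      rβ] at h2
    exact h2

/-- **reduction of integral sections, split level** -/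
theorem GaussVal.red_up (g : GaussVal v r M M0 x y x0 y0) (hW : RedCurve v r Wt W0) (hΔt : Wt.Δ ≠ 0) (hΔ : W0.Δ ≠ 0)
    (h : IsWFF Wt M x y) (h0 : IsWFF W0 M0 x0 y0) {Dn I : Type} [Fintype Dn] [Fintype I]
    (d : Dn → Wt.toAffine.Point) (db : Dn → W0.toAffine.Point) (hred : ∀ j, RedPt v r (d j) (db j))
    (db_inj : Function.Injective db) (d_zero : ∃ j, d j = 0) (d_neg : ∀ j, ∃ j', d j' = - d j)
    (ξ : I → Wt.toAffine.Point) (t : I → W0.toAffine.Point) (hredξ : ∀ i, RedPt v r (ξ i) (t i))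
    (t_inj : Function.Injective t) (t_ne : ∀ i j, t i ≠ db j)
    (pd : Dn → Place K M) (hpd : ∀ j, (pd j).IsAtPt x y (d j))
    (pdb : Dn → Place k M0) (hpdb : ∀ j, (pdb j).IsAtPt x0 y0 (db j))
    (pξ : I → Place K M) (hpξ : ∀ i, (pξ i).IsAtPt x y (ξ i))
    (pt : I → Place k M0) (hpt : ∀ i, (pt i).IsAtPt x0 y0 (t i))
    (j : ℕ) (A' : Finset I) (b : M)
    (hb : b ∈ LSp (j • (2 • ∑ j', Finsupp.single (pd j') (1 : ℤ)) - ∑ i ∈ A', Finsupp.single (pξ i) 1))
    (hv : g.v1 b ≤ 1) :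
    g.r1.res b ∈ LSp (j • (2 • ∑ j', Finsupp.single (pdb j') (1 : ℤ)) - ∑ i ∈ A', Finsupp.single (pt i) 1) := by
  have := h.isFF
  have := h0.isFF
  have hz := ga5_zero_iff hred db_inj d_zero
  have d_inj : Function.Injective d := by
    intro a a' e
    have h1 := hred a'
    rw [← e] at h1
    exact db_inj (RedPt.unique (hred a) h1)
  have db_zero : ∃ j, db j = 0 := by
    obtain ⟨j₀, hj₀⟩ := d_zero
    exact ⟨j₀, (hz j₀).1 hj₀⟩
  have db_neg : ∀ j, ∃ j', db j' = - db j := by
    intro j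
    obtain ⟨j', hj'⟩ := d_neg j
    refine ⟨j', ?_⟩
    have h1 := hred j'
    rw [hj'] at h1
    exact RedPt.unique h1 ((hred j).neg hW)
  have t_ne_zero : ∀ i, t i ≠ 0 := by
    intro i
    obtain ⟨j₀, hj₀⟩ := db_zero
    rw [← hj₀]
    exact t_ne i j₀
  have pt_inj : Function.Injective pt := by
    intro i i' e
    have h1 := hpt i'
    rw [← e] at h1
    exact t_inj (h0.atPt_inj (hpt i) h1)
  have hvH := h.v_hfun hΔt d d_inj d_zero d_neg pd hpd
  have hvH0 := h0.v_hfun hΔ db db_inj db_zero db_neg pdb hpdb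
  obtain ⟨hH1, hHres⟩ := g.res_hfun d db hred db_inj d_zero
  obtain ⟨Pinf, hPinf, -⟩ := h.existsUnique_inf
  obtain ⟨P0inf, hP0inf, -⟩ := h0.existsUnique_inf
  -- the local estimate for `f = b hfun^j`
  have hloc : ∀ P : Place K M, P.v (b * hfun x d ^ j) ≤
      exp (-(∑ i ∈ A', Finsupp.single (pξ i) (1 : ℤ)) P +
        j * ((if P.IsInf x then 2 * Fintype.card Dn else 0 : ℕ) : ℤ)) := by
    intro P
    refine ga5_key_le ?_ (hvH P)
    have h1 := hb P
    rwa [Finsupp.sub_apply, Finsupp.smul_apply, nsmul_eq_mul] at h1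
  have hf : b * hfun x d ^ j ∈ LSp (Finsupp.single Pinf ((j * (2 * Fintype.card Dn) : ℕ) : ℤ)) := by
    intro P
    refine (hloc P).trans ?_
    rw [exp_le_exp]
    have hT := ga5_sum_single_nonneg A' pξ P
    generalize (∑ i ∈ A', Finsupp.single (pξ i) (1 : ℤ)) P = T at hT ⊢
    split_ifs with hP
    · obtain rfl := h.existsUnique_inf.unique hP hPinf
      rw [Finsupp.single_eq_same]
      push_cast
      linarith
    · have hne : Pinf ≠ P := fun e => hP (e ▸ hPinf)
      rw [Finsupp.single_apply, if_neg hne]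
      push_cast
      linarith
  obtain ⟨A, B, hAB, hAdeg, hBdeg⟩ := (h.mem_LSp_inf_iff hΔt hPinf _ _).1 hf
  -- integrality
  have hv1 : g.v1 (b * hfun x d ^ j) ≤ 1 := by
    rw [map_mul, map_pow, hH1, one_pow, mul_one]
    exact hv
  have hnorm : gNorm v A ≤ 1 ∧ gNorm v B ≤ 1 := by
    rw [hAB, g.v_poly, max_le_iff] at hv1
    exact hv1
  -- the residue of `f`
  have hres : g.r1.res b * hfun x0 db ^ j =
      aeval x0 (redPoly r A) + aeval x0 (redPoly r B) * y0 := by
    rw [← g.res_poly A B hnorm.1 hnorm.2, ← hAB, g.r1.res_mul hv (g.r1.ga5_res_pow hH1.le j).1,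
      (g.r1.ga5_res_pow hH1.le j).2, hHres]
  have hf0 : aeval x0 (redPoly r A) + aeval x0 (redPoly r B) * y0 ∈
      LSp (Finsupp.single P0inf ((j * (2 * Fintype.card Dn) : ℕ) : ℤ)) := by
    refine (h0.mem_LSp_inf_iff hΔ hP0inf _ _).2 ⟨_, _, rfl, ?_, ?_⟩
    · have := natDegree_redPoly_le r A
      omega
    · rcases hBdeg with hB0 | hB0
      · left
        rw [hB0]
        simp [redPoly]
      · right
        have := natDegree_redPoly_le r B
        omega
  -- conclusion, place by place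
  intro P0
  rw [Finsupp.sub_apply, Finsupp.smul_apply, nsmul_eq_mul]
  refine ga5_key_le' (c := ((if P0.IsInf x0 then 2 * Fintype.card Dn else 0 : ℕ) : ℤ)) ?_ (hvH0 P0)
  rw [hres]
  by_cases hex : ∃ i ∈ A', pt i = P0
  · obtain ⟨i, hi, rfl⟩ := hex
    have hfin0 : ¬ (pt i).IsInf x0 := fun e => t_ne_zero i ((Place.ga5_isInf_iff (hpt i)).1 e)
    have hξ0 : ξ i ≠ 0 := by
      intro e
      have h1 := hredξ i
      rw [e] at h1
      exact t_ne_zero i (RedPt.unique h1 RedPt.zero)
    have hfin : ¬ (pξ i).IsInf x := fun e => hξ0 ((Place.ga5_isInf_iff (hpξ i)).1 e)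
    rw [ga5_sum_single_eq_one A' pt pt_inj hi, if_neg hfin0, Nat.cast_zero, mul_zero, add_zero,
      ← Place.v_lt_one_iff_le]
    refine ga5_vanish h h0 (hredξ i) (t_ne_zero i) (hpξ i) (hpt i) hnorm.1 hnorm.2 ?_
    rw [← hAB, Place.v_lt_one_iff_le]
    refine (hloc (pξ i)).trans ?_
    rw [exp_le_exp, if_neg hfin, Nat.cast_zero]
    have := ga5_one_le_sum_single A' pξ hi
    linarith
  · push Not at hex
    rw [ga5_sum_single_eq_zero A' pt hex]
    refine (hf0 P0).trans ?_
    rw [exp_le_exp]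
    split_ifs with hP
    · obtain rfl := h0.existsUnique_inf.unique hP hP0inf
      rw [Finsupp.single_eq_same]
      push_cast
      linarith
    · have hne : P0inf ≠ P0 := fun e => hP (e ▸ hP0inf)
      rw [Finsupp.single_apply, if_neg hne]
      push_cast
      linarith

end

end Claimed.Agent.R280
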