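import Claimed.Agent.R280.Tw.A4

/-!
# Row 280, Gauss package GA0 `TwPlaces`: places of a twisted Weierstrass function field

`h : IsTwist W σ Q M M' x y`  (`k ⊆ k'` cyclic, `M' = k'(x,y) = M ⊗_k k'`, `δ = id ⊗ σ`, `(δx, δy) = (x,y) + Q`).
Descent action on points `twAct σ Q R = σ R - Q` (sign as in `IsWFF.place_comp_delta`: the places at `R` and at `σ R - Q` have the same restriction to `M`).
For an injective family of points `Z : ι → W(k')` stable under `twAct`, with induced permutation `π` of `ι`, `TwFam` collects: the places `pl i` of `M'` at `Z i`,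
the places `P l` of `M` under them (`l` a cycle of `π`), `deg (P l) = |l|`, and the conorm.  USED ON BOTH SIDES (`L ⊆ L1` and `F ⊆ S`) with the SAME `ι`, `π`.

PLAN.
* (`IsTwist.isFF`, `IsTwist.chi_eq_zero`, `IsTwist.same_below_iff` are leaves of Tw/A4.lean.)
* `mem_LSp_constExt`: every `Q` lies over a unique `P`, `e = 1` (`Place.ramIdx_constExt`, `overE_ramIdx`-analogue), `conorm D Q = D P`; every `P` has a `Q` above.
* `conorm_sum`: `conorm` is additive (`Finsupp.sum_add_index'`).
* `IsTwist.aut_eq_zpowers`: `[M':M] = [k':k]` (pushout), `δ|k' = σ` has order `[k':k]`, Artin.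
* `nonempty_twFam`: `pl i` by `IsWFF.existsUnique_atPt`; `P ⟦i⟧ :=` place below `pl i` (`existsUnique_below_constExt`), well defined by `IsTwist.same_below_iff` (Tw/A4);
  the places above `P l` are the `pl (π^n i)` (`exists_atPt_of_over`, `hπ`, uniqueness of the place at a point);
  `deg`: `sum_deg_constExt`, `deg (pl i) = 1` (`inf_spec`, `at_spec`), `ramIdx = 1`.
~1500 lines.   Owner of the statements: helper66.   PROVED (helper81): no sorry of its own (uses `IsTwist.isFF` of Tw/A4).
-/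

set_option autoImplicit false

namespace Claimed.Agent.R280

open WithZero WeierstrassCurve
open scoped Classical

/-! ### complements to FF7 -/
section ConstExt

variable {F S M MS : Type} [Field F] [Field S] [Field M] [Field MS] [Algebra F S] [Algebra F M]
  [Algebra S MS] [Algebra M MS] [Algebra F MS] [IsScalarTower F S MS] [IsScalarTower F M MS]
  [FiniteDimensional F S]

theorem mem_LSp_constExt [Algebra.IsSeparable F S] [IsFF F M] (h : Algebra.IsPushout F S M MS) (D : Dvsr F M) (f : M) :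
    f ∈ LSp D ↔ algebraMap M MS f ∈ LSp (conorm S MS D) := by
  rw [mem_LSp, mem_LSp]
  have key : ∀ (Q : Place S MS) (P : Place F M), Q.Over P →
      (Q.v (algebraMap M MS f) ≤ exp (conorm S MS D Q) ↔ P.v f ≤ exp (D P)) := by
    intro Q P hQ
    have h1 := (Place.overE_ramIdx hQ).2 f
    rw [Place.ramIdx_constExt h hQ, pow_one] at h1
    rw [conorm_constExt_apply h D hQ, h1]
  constructor
  · intro hf Q
    obtain ⟨P, hP, -⟩ := Place.existsUnique_below_constExt h Q
    exact (key Q P hP).2 (hf P)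
  · intro hf P
    obtain ⟨Q, hQ⟩ := Place.exists_over_constExt h P
    exact (key Q P hQ).1 (hf Q)

omit [Algebra F S] [Algebra F MS] [IsScalarTower F S MS] [IsScalarTower F M MS] [FiniteDimensional F S] in
/-- `conorm` as an additive homomorphism -/
theorem ga0_conorm_eq (D : Dvsr F M) : conorm S MS D =
    Finsupp.liftAddHom (fun P : Place F M => (smulAddHom ℤ (Dvsr S MS)).flip (conormPlace S MS P)) D := by
  rw [Finsupp.liftAddHom_apply]
  rfl

omit [Algebra F S] [Algebra F MS] [IsScalarTower F S MS] [IsScalarTower F M MS] [FiniteDimensional F S] in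
theorem ga0_conorm_single (P : Place F M) (c : ℤ) :
    conorm S MS (Finsupp.single P c) = c • conormPlace S MS P := by
  rw [conorm, Finsupp.sum_single_index (by simp)]

omit [Algebra F S] [Algebra F MS] [IsScalarTower F S MS] [IsScalarTower F M MS] [FiniteDimensional F S] in
theorem conorm_sum {ι : Type} (s : Finset ι) (c : ι → ℤ) (P : ι → Place F M) :
    conorm S MS (∑ i ∈ s, c i • Finsupp.single (P i) 1) = ∑ i ∈ s, c i • conormPlace S MS (P i) := by
  rw [ga0_conorm_eq, map_sum]
  refine Finset.sum_congr rfl fun i _ => ?_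
  rw [← ga0_conorm_eq, Finsupp.smul_single, ga0_conorm_single]
  simp

omit [Algebra F S] [Algebra F MS] [IsScalarTower F S MS] [IsScalarTower F M MS] [FiniteDimensional F S] in
theorem conorm_sub (D D' : Dvsr F M) : conorm S MS (D - D') = conorm S MS D - conorm S MS D' := by
  simp only [ga0_conorm_eq, map_sub]

omit [Algebra F S] [Algebra F MS] [IsScalarTower F S MS] [IsScalarTower F M MS] [FiniteDimensional F S] in
theorem conorm_nsmul (j : ℕ) (D : Dvsr F M) : conorm S MS (j • D) = j • conorm S MS D := by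
  simp only [ga0_conorm_eq, map_nsmul]

end ConstExt

/-! ### automorphisms of a constant field extension -/
section Po

variable {F S M MS : Type} [Field F] [Field S] [Field M] [Field MS] [Algebra F S] [Algebra F M]
  [Algebra S MS] [Algebra M MS] [Algebra F MS] [IsScalarTower F S MS] [IsScalarTower F M MS]

/-- an `M`-automorphism of `MS = M ⊗ S` is determined by its values on `S` -/
theorem ga0_aut_ext (h : Algebra.IsPushout F S M MS) {g g' : MS ≃ₐ[M] MS}
    (hg : ∀ c : S, g (algebraMap S MS c) = g' (algebraMap S MS c)) : g = g' := by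
  obtain ⟨b, hb⟩ := basis_constExt h (Module.Free.chooseBasis F S)
  have : g.toLinearMap = g'.toLinearMap := b.ext fun i => by
    simp only [AlgEquiv.toLinearMap_apply, hb, hg]
  ext z
  exact congrArg (fun l : MS →ₗ[M] MS => l z) this

/-- restriction of an `M`-automorphism of `MS` to the normal subfield `S` -/
noncomputable def ga0Res [Normal F S] : (MS ≃ₐ[M] MS) →* (S ≃ₐ[F] S) :=
  (AlgEquiv.restrictNormalHom S).comp (AlgEquiv.restrictScalarsHom (R := F) (S := M) (A := MS))

theorem ga0Res_commutes [Normal F S] (g : MS ≃ₐ[M] MS) (c : S) :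
    algebraMap S MS (ga0Res (F := F) g c) = g (algebraMap S MS c) :=
  AlgEquiv.restrictNormal_commutes (g.restrictScalars F) S c

theorem ga0Res_injective [Normal F S] (h : Algebra.IsPushout F S M MS) :
    Function.Injective (ga0Res (F := F) (S := S) (M := M) (MS := MS)) := by
  intro g g' hgg
  refine ga0_aut_ext h fun c => ?_
  rw [← ga0Res_commutes (F := F), ← ga0Res_commutes (F := F), hgg]

theorem ga0Res_eq [Normal F S] {g : MS ≃ₐ[M] MS} {σ : S ≃ₐ[F] S}
    (hg : ∀ c : S, g (algebraMap S MS c) = algebraMap S MS (σ c)) : ga0Res (F := F) g = σ := by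
  ext c
  apply (algebraMap S MS).injective
  rw [ga0Res_commutes, hg]

/-- the Galois group of a constant field extension with cyclic group -/
theorem ga0_aut_eq_zpowers [FiniteDimensional F S] [IsGalois F S] (h : Algebra.IsPushout F S M MS)
    {σ : S ≃ₐ[F] S} (hσ : ∀ τ : S ≃ₐ[F] S, τ ∈ Subgroup.zpowers σ) (δ : MS ≃ₐ[M] MS)
    (hδ : ∀ c : S, δ (algebraMap S MS c) = algebraMap S MS (σ c)) :
    IsGalois M MS ∧ Module.finrank M MS = Module.finrank F S ∧
      ∀ g : MS ≃ₐ[M] MS, g ∈ Subgroup.zpowers δ := by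
  have hρδ : ga0Res (F := F) δ = σ := ga0Res_eq hδ
  have hinj := ga0Res_injective (F := F) h
  have hsurj : Function.Surjective (ga0Res (F := F) (S := S) (M := M) (MS := MS)) := by
    intro τ
    obtain ⟨j, rfl⟩ := Subgroup.mem_zpowers_iff.1 (hσ τ)
    exact ⟨δ ^ j, by rw [map_zpow, hρδ]⟩
  have := finite_constExt h
  refine ⟨?_, finrank_constExt h, ?_⟩
  · apply IsGalois.of_card_aut_eq_finrank
    rw [finrank_constExt h, ← IsGalois.card_aut_eq_finrank F S]
    exact Nat.card_congr (Equiv.ofBijective _ ⟨hinj, hsurj⟩)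
  · intro g
    obtain ⟨j, hj⟩ := Subgroup.mem_zpowers_iff.1 (hσ (ga0Res (F := F) g))
    refine Subgroup.mem_zpowers_iff.2 ⟨j, hinj ?_⟩
    rw [map_zpow, hρδ, hj]

end Po

/-! ### the descent action -/

/-- the descent action on points: `R ↦ σ R - Q` -/
noncomputable def twAct {k k' : Type} [Field k] [Field k'] [Algebra k k'] {W : WeierstrassCurve k}
    (σ : k' ≃ₐ[k] k') (Q R : (W.baseChange k').toAffine.Point) : (W.baseChange k').toAffine.Point :=
  Affine.Point.map (W' := W.toAffine) σ.toAlgHom R - Q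

/-- the cycles of a permutation -/
abbrev Cyc {ι : Type} (π : Equiv.Perm ι) : Type := Quotient (Equiv.Perm.SameCycle.setoid π)

/-- the cycle of `i` -/
abbrev Cyc.mk {ι : Type} (π : Equiv.Perm ι) (i : ι) : Cyc π := Quotient.mk (Equiv.Perm.SameCycle.setoid π) i

noncomputable instance {ι : Type} [Fintype ι] (π : Equiv.Perm ι) : Fintype (Cyc π) := Fintype.ofFinite _

section Twist

variable {k k' : Type} [Field k] [Field k'] [Algebra k k'] {W : WeierstrassCurve k} {σ : k' ≃ₐ[k] k'}
  {Q : (W.baseChange k').toAffine.Point} {M M' : Type} [Field M] [Field M'] [Algebra k M] [Algebra k' M']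
  [Algebra M M'] [Algebra k M'] [IsScalarTower k k' M'] [IsScalarTower k M M'] {x y : M'}
  [FiniteDimensional k k'] [IsGalois k k']

omit [FiniteDimensional k k'] [IsGalois k k'] in
theorem IsTwist.isFF' (h : IsTwist W σ Q M M' x y) : IsFF k' M' := h.wff.isFF

/-- `M'/M` is Galois and its group is generated by `δ` -/
theorem IsTwist.aut_eq_zpowers (h : IsTwist W σ Q M M' x y) (δ : M' ≃ₐ[M] M')
    (hδ : ∀ c : k', δ (algebraMap k' M' c) = algebraMap k' M' (σ c)) :
    IsGalois M M' ∧ Module.finrank M M' = Module.finrank k k' ∧ ∀ g : M' ≃ₐ[M] M', g ∈ Subgroup.zpowers δ :=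
  ga0_aut_eq_zpowers h.po h.gen δ hδ

omit [FiniteDimensional k k'] [IsGalois k k'] in
/-- the place at `twAct^[n] R` is the place at `R` composed with `δ^{-n}` -/
theorem IsTwist.ga0_iter (h : IsTwist W σ Q M M' x y) (hΔ : W.Δ ≠ 0) (δ : M' ≃ₐ[M] M')
    (hδ : ∀ c : k', δ (algebraMap k' M' c) = algebraMap k' M' (σ c))
    (hδ2 : IsTransBy (W.baseChange k') x y (δ x) (δ y) Q) (n : ℕ) :
    ∀ {R : (W.baseChange k').toAffine.Point} {P P1 : Place k' M'}, P.IsAtPt x y R →
      P1.IsAtPt x y ((twAct σ Q)^[n] R) → ∀ f : M', P1.v ((δ ^ n) f) = P.v f := by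
  have hΔ' : (W.baseChange k').Δ ≠ 0 := ell5c_Δ_ne_zero hΔ
  induction n with
  | zero =>
    intro R P P1 hP hP1 f
    rw [(h.wff.existsUnique_atPt hΔ' R).unique hP1 hP]
    rfl
  | succ n ih =>
    intro R P P1 hP hP1 f
    obtain ⟨Pa, hPa, -⟩ := h.wff.existsUnique_atPt hΔ' (twAct σ Q R)
    rw [Function.iterate_succ_apply] at hP1
    have h1 := ih hPa hP1 (δ f)
    have h2 : Pa.v (δ f) = P.v f :=
      h.wff.place_comp_delta hΔ (δ := δ.toRingEquiv) hδ hδ2 hPa hP f
    rw [pow_succ, AlgEquiv.mul_apply, h1, h2]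

omit [FiniteDimensional k k'] [IsGalois k k'] in
theorem IsTwist.ga0_iter' (h : IsTwist W σ Q M M' x y) (hΔ : W.Δ ≠ 0) (δ : M' ≃ₐ[M] M')
    (hδ : ∀ c : k', δ (algebraMap k' M' c) = algebraMap k' M' (σ c))
    (hδ2 : IsTransBy (W.baseChange k') x y (δ x) (δ y) Q) (n : ℕ)
    {R : (W.baseChange k').toAffine.Point} {P P1 : Place k' M'} (hP : P.IsAtPt x y R)
    (h1 : ∀ f : M', P1.v ((δ ^ n) f) = P.v f) : P1.IsAtPt x y ((twAct σ Q)^[n] R) := by
  have hΔ' : (W.baseChange k').Δ ≠ 0 := ell5c_Δ_ne_zero hΔ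
  obtain ⟨P2, hP2, -⟩ := h.wff.existsUnique_atPt hΔ' ((twAct σ Q)^[n] R)
  have h2 := h.ga0_iter hΔ δ hδ hδ2 n hP hP2
  have : P1 = P2 := by
    ext f
    obtain ⟨f', rfl⟩ := (δ ^ n).surjective f
    rw [h1, h2]
  rw [this]
  exact hP2

omit [FiniteDimensional k k'] [IsGalois k k'] in
/-- the places at `R` and at `twAct^[n] R` have the same restriction to `M` -/
theorem IsTwist.ga0_over_iter (h : IsTwist W σ Q M M' x y) (hΔ : W.Δ ≠ 0) (n : ℕ)
    {R : (W.baseChange k').toAffine.Point} {P P1 : Place k' M'} (hP : P.IsAtPt x y R)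
    (hP1 : P1.IsAtPt x y ((twAct σ Q)^[n] R)) {P₀ : Place k M} (h₀ : P.Over P₀) : P1.Over P₀ := by
  obtain ⟨δ, hδ, hδ2⟩ := h.twist
  obtain ⟨e, he, he'⟩ := h₀
  refine ⟨e, he, fun f => ?_⟩
  rw [← he', ← h.ga0_iter hΔ δ hδ hδ2 n hP hP1, AlgEquiv.commutes]

/-- all places of `M'` over the place below a rational point are rational, at the points of the `twAct`-orbit
(`M'/M` Galois with group `⟨δ⟩`, transitivity `Place.exists_smulAut_eq` after regarding `Place k' M'` as `Place k M'`, `IsWFF.place_comp_delta`) -/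
theorem IsTwist.exists_atPt_of_over (h : IsTwist W σ Q M M' x y) (hΔ : W.Δ ≠ 0)
    {R : (W.baseChange k').toAffine.Point} {P P1 : Place k' M'} (hP : P.IsAtPt x y R) {P₀ : Place k M}
    (h₀ : P.Over P₀) (h₁ : P1.Over P₀) : ∃ n : ℕ, P1.IsAtPt x y ((twAct σ Q)^[n] R) := by
  obtain ⟨δ, hδ, hδ2⟩ := h.twist
  obtain ⟨hgal, -, hgen⟩ := h.aut_eq_zpowers δ hδ
  have := finite_constExt h.po
  obtain ⟨g, hg⟩ := Place.exists_smulAut_eq (k := k) (M := M) (M' := M') (Q := P.restrictConst k)
    (Q' := P1.restrictConst k) (P := P₀) h₀ h₁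
  obtain ⟨n, rfl : δ ^ n = g⟩ := mem_powers_iff_mem_zpowers.mpr (hgen g)
  refine ⟨n, h.ga0_iter' hΔ δ hδ hδ2 n hP fun f => ?_⟩
  have h1 := congrArg (fun R : Place k M' => R.v ((δ ^ n) f)) hg
  simp only [Place.smulAut_v_apply, AlgEquiv.symm_apply_apply, Place.restrictConst_v] at h1
  exact h1.symm

/-- the places attached to a stable family of points -/
structure TwFam (k k' M M' : Type) [Field k] [Field k'] [Field M] [Field M'] [Algebra k M] [Algebra k' M']
    [Algebra M M'] {W' : WeierstrassCurve k'} (x y : M') {ι : Type} [Fintype ι] (Z : ι → W'.toAffine.Point)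
    (π : Equiv.Perm ι) where
  pl : ι → Place k' M'
  P : Cyc π → Place k M
  pl_at : ∀ i, (pl i).IsAtPt x y (Z i)
  pl_deg : ∀ i, (pl i).deg = 1
  pl_inj : Function.Injective pl
  P_inj : Function.Injective P
  over_iff : ∀ (l : Cyc π) (P1 : Place k' M'), P1.Over (P l) ↔ ∃ i, Cyc.mk π i = l ∧ P1 = pl i
  deg : ∀ l, (P l).deg = (Finset.univ.filter fun i => Cyc.mk π i = l).card
  conorm : ∀ l, conormPlace k' M' (P l) = ∑ i ∈ Finset.univ.filter (fun i => Cyc.mk π i = l), Finsupp.single (pl i) 1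

theorem IsTwist.nonempty_twFam (h : IsTwist W σ Q M M' x y) (hΔ : W.Δ ≠ 0) {ι : Type} [Fintype ι]
    (Z : ι → (W.baseChange k').toAffine.Point) (hZ : Function.Injective Z) (π : Equiv.Perm ι)
    (hπ : ∀ i, Z (π i) = twAct σ Q (Z i)) : Nonempty (TwFam k k' M M' x y Z π) := by
  have hΔ' : (W.baseChange k').Δ ≠ 0 := ell5c_Δ_ne_zero hΔ
  have := h.isFF
  choose pl hpl hplu using fun i => h.wff.existsUnique_atPt hΔ' (Z i)
  choose bl hbl hblu using fun P1 : Place k' M' => Place.existsUnique_below_constExt h.po P1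
  have hit : ∀ (n : ℕ) (i : ι), Z ((π ^ n) i) = (twAct σ Q)^[n] (Z i) := by
    intro n
    induction n with
    | zero => intro i; rfl
    | succ n ih =>
      intro i
      rw [pow_succ, Equiv.Perm.mul_apply, ih, hπ, Function.iterate_succ_apply]
  have hpow : ∀ (n : ℕ) (i : ι), bl (pl ((π ^ n) i)) = bl (pl i) := by
    intro n i
    refine (hblu _ _ (h.ga0_over_iter hΔ n (hpl i) ?_ (hbl (pl i)))).symm
    rw [← hit]
    exact hpl _
  have hsame : ∀ i j, π.SameCycle i j → bl (pl i) = bl (pl j) := by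
    intro i j hij
    obtain ⟨n, rfl⟩ := hij.exists_nat_pow_eq
    exact (hpow n i).symm
  have hinj : Function.Injective pl := by
    intro i j hij
    apply hZ
    have h1 := hpl i
    rw [hij] at h1
    exact h.wff.atPt_inj h1 (hpl j)
  let P : Cyc π → Place k M := Quotient.lift (fun i => bl (pl i)) hsame
  have hPmk : ∀ i, P (Cyc.mk π i) = bl (pl i) := fun i => rfl
  have hmkpow : ∀ (n : ℕ) (i : ι), Cyc.mk π ((π ^ n) i) = Cyc.mk π i := by
    intro n i
    exact Quotient.sound (Equiv.Perm.SameCycle.symm ⟨n, by simp⟩)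
  have hover : ∀ (l : Cyc π) (P1 : Place k' M'), P1.Over (P l) ↔ ∃ i, Cyc.mk π i = l ∧ P1 = pl i := by
    intro l P1
    obtain ⟨i0, rfl⟩ := Quotient.exists_rep l
    constructor
    · intro h1
      obtain ⟨n, hn⟩ := h.exists_atPt_of_over hΔ (hpl i0) (hbl (pl i0)) h1
      rw [← hit] at hn
      exact ⟨(π ^ n) i0, hmkpow n i0, hplu _ _ hn⟩
    · rintro ⟨i, hi, rfl⟩
      have : P ⟦i0⟧ = bl (pl i) := by
        rw [← hPmk i]
        exact congrArg P hi.symm
      rw [this]
      exact hbl _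
  have hram : ∀ (l : Cyc π) (P1 : Place k' M'),
      P1.ramIdx (P l) = if ∃ i, Cyc.mk π i = l ∧ P1 = pl i then 1 else 0 := by
    intro l P1
    split_ifs with h1
    · exact Place.ramIdx_constExt h.po ((hover l P1).2 h1)
    · exact Place.ramIdx_eq_zero fun h2 => h1 ((hover l P1).1 h2)
  refine ⟨⟨pl, P, hpl, fun i => h.wff.deg_of_atPt hΔ' (hpl i), hinj, ?_, hover, ?_, ?_⟩⟩
  · intro l l' hll
    obtain ⟨i, rfl⟩ := Quotient.exists_rep l
    have h1 : (pl i).Over (P l') := by
      rw [← hll]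
      exact hbl _
    obtain ⟨j, hj, hij⟩ := (hover l' _).1 h1
    rw [← hj, hinj hij]
  · intro l
    rw [← sum_deg_constExt h.po (P l)]
    rw [finsum_eq_sum_of_support_subset _
      (s := (Finset.univ.filter fun i => Cyc.mk π i = l).image pl) ?_]
    · rw [Finset.sum_image fun a _ b _ hab => hinj hab, Finset.card_eq_sum_ones]
      refine Finset.sum_congr rfl fun i hi => ?_
      rw [hram, if_pos ⟨i, (Finset.mem_filter.1 hi).2, rfl⟩, h.wff.deg_of_atPt hΔ' (hpl i)]
    · intro P1 hP1
      by_contra hcon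
      apply hP1
      show P1.ramIdx (P l) * P1.deg = 0
      rw [hram, if_neg, zero_mul]
      rintro ⟨i, hi, rfl⟩
      exact hcon (Finset.mem_coe.2 (Finset.mem_image_of_mem _ (Finset.mem_filter.2 ⟨Finset.mem_univ _, hi⟩)))
  · intro l
    ext P1
    rw [ff7b_conormPlace_apply h.po, hram, Finsupp.finsetSum_apply]
    simp only [Finsupp.single_apply]
    split_ifs with h1
    · obtain ⟨i, hi, rfl⟩ := h1
      rw [Finset.sum_eq_single i]
      · simp
      · intro j _ hj
        rw [if_neg fun hh => hj (hinj hh)]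
      · intro hh
        exact absurd (Finset.mem_filter.2 ⟨Finset.mem_univ i, hi⟩) hh
    · symm
      push_cast
      refine Finset.sum_eq_zero fun i hi => ?_
      rw [if_neg fun hh => h1 ⟨i, (Finset.mem_filter.1 hi).2, hh.symm⟩]

/-- two disjoint stable families have disjoint places below -/
theorem TwFam.P_ne (h : IsTwist W σ Q M M' x y) {ι ι' : Type} [Fintype ι] [Fintype ι']
    {Z : ι → (W.baseChange k').toAffine.Point} {π : Equiv.Perm ι} {Z' : ι' → (W.baseChange k').toAffine.Point}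
    {π' : Equiv.Perm ι'} (A : TwFam k k' M M' x y Z π) (A' : TwFam k k' M M' x y Z' π')
    (hne : ∀ i i', Z i ≠ Z' i') (l : Cyc π) (l' : Cyc π') : A.P l ≠ A'.P l' := by
  intro hll
  obtain ⟨i, hi⟩ := Quotient.exists_rep l
  have h1 : (A.pl i).Over (A.P l) := (A.over_iff l _).2 ⟨i, hi, rfl⟩
  rw [hll] at h1
  obtain ⟨i', -, hi'⟩ := (A'.over_iff l' _).1 h1
  have h2 := A.pl_at i
  rw [hi'] at h2
  exact hne i i' (h.wff.atPt_inj h2 (A'.pl_at i'))

end Twist

end Claimed.Agent.R280
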