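import Claimed.Agent.R280.Gauss.Desc
import Claimed.Agent.R280.Gauss.Perms
import Claimed.Agent.R280.Gauss.RedUp
import Claimed.Agent.R280.Ins.FromTw
import Claimed.Agent.R280.Deep

/-!
# Row 280, Gauss package GA6 `Level` (thm D): `LevelData` from a `TwBase`

CHAIN of thm D:  GA0 TwPlaces → GA1 Val → GA2 Delta → GA3 Desc;  GA4 Perms;  GA5 RedUp;  thm C (Ins/FromTw)  →  GA6 Level (`TwBase.levelData_pf`, PROVED below from the leaves).

PLAN of the leaves of this file.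
* `TwFam.pol_*`: `Finsupp` bookkeeping; `pol_deg`: `deg (P l) = |l|` (`TwFam.deg`), the cycles partition `ι` (`Finset.card_eq_sum_card_fiberwise`).
* `range_P_iff`, `range_t_iff`: `(→)` `pl i` is at `Z i` and lies over `P ⟦i⟧` (`over_iff`).  `(←)` a place at `Z i` equals `pl i` (`IsWFF.existsUnique_atPt`), and the place below is unique
  (`Place.existsUnique_below_constExt`).
* `red_down`: `mem_LSp_constExt` (both sides), `conorm_sub`, `conorm_nsmul`, `conorm_sum`, `TwFam.conorm`: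
  `conorm (j • pol - ∑_{l ∈ A} [P l]) = j • (2 • ∑_{j'} [pl j']) - ∑_{i : ⟦i⟧ ∈ A} [pl i]`; `GaussVal.red_up` with `A' = {i | ⟦i⟧ ∈ A}`; `hrX`.
~900 lines.   Owner of the statements: helper66.
-/

set_option autoImplicit false

namespace Claimed.Agent.R280

open WithZero WeierstrassCurve
open scoped Classical

section Pol

variable {k k' M M' : Type} [Field k] [Field k'] [Field M] [Field M'] [Algebra k M] [Algebra k' M'] [Algebra M M']
  {W' : WeierstrassCurve k'} {x y : M'} {ι : Type} [Fintype ι] {Z : ι → W'.toAffine.Point} {π : Equiv.Perm ι}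

/-- the polarisation `2 ∑_l [P l]` -/
noncomputable def TwFam.pol (A : TwFam k k' M M' x y Z π) : Dvsr k M := 2 • ∑ l, Finsupp.single (A.P l) (1 : ℤ)

theorem ga6_pol_apply (A : TwFam k k' M M' x y Z π) (P : Place k M) :
    A.pol P = 2 * ∑ l, Finsupp.single (A.P l) (1 : ℤ) P := by
  rw [TwFam.pol, Finsupp.smul_apply, Finsupp.finsetSum_apply]
  simp

theorem TwFam.pol_nonneg (A : TwFam k k' M M' x y Z π) (P : Place k M) : 0 ≤ A.pol P := by
  rw [ga6_pol_apply]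
  refine mul_nonneg (by norm_num) (Finset.sum_nonneg fun l _ => ?_)
  rw [Finsupp.single_apply]
  split_ifs <;> norm_num

theorem TwFam.pol_deg (A : TwFam k k' M M' x y Z π) : A.pol.deg = 2 * (Fintype.card ι : ℤ) := by
  have h2 : A.pol = (2 : ℤ) • ∑ l, Finsupp.single (A.P l) (1 : ℤ) := by
    rw [TwFam.pol, two_smul, two_smul]
  rw [h2, Dvsr.deg_smul, ffAb_deg_sum]
  congr 1
  simp only [Dvsr.deg_single, one_mul, A.deg]
  rw [← Nat.cast_sum, ← Finset.card_univ,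
    Finset.card_eq_sum_card_fiberwise (f := Cyc.mk π) (s := Finset.univ) (t := Finset.univ)
      (fun _ _ => Finset.mem_coe.2 (Finset.mem_univ _))]

theorem TwFam.pol_eq_zero (A : TwFam k k' M M' x y Z π) {P : Place k M} (h : ∀ l, P ≠ A.P l) : A.pol P = 0 := by
  rw [ga6_pol_apply, Finset.sum_eq_zero, mul_zero]
  intro l _
  rw [Finsupp.single_apply, if_neg (fun e => h l e.symm)]

/-- the places `P l` are exactly the places under the places at the points `Z i` -/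
theorem ga6_range_iff (h : IsWFF W' M' x y) (hΔ : W'.Δ ≠ 0) (A : TwFam k k' M M' x y Z π) (P' : Place k M) :
    P' ∈ Set.range A.P ↔ ∃ (i : ι) (P1 : Place k' M'), P1.IsAtPt x y (Z i) ∧ P1.Over P' := by
  constructor
  · rintro ⟨l, rfl⟩
    obtain ⟨i, rfl⟩ := Quotient.exists_rep l
    exact ⟨i, A.pl i, A.pl_at i, (A.over_iff _ _).2 ⟨i, rfl, rfl⟩⟩
  · rintro ⟨i, P1, hat, hov⟩
    have e1 : P1 = A.pl i := (h.existsUnique_atPt hΔ (Z i)).unique hat (A.pl_at i)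
    have e2 : (A.pl i).Over (A.P (Cyc.mk π i)) := (A.over_iff _ _).2 ⟨i, rfl, rfl⟩
    exact ⟨Cyc.mk π i, e2.unique (e1 ▸ hov)⟩

/-- conorm of a sum of places `P l` -/
theorem ga6_conorm_sum (A : TwFam k k' M M' x y Z π) (s : Finset (Cyc π)) :
    conorm k' M' (∑ l ∈ s, Finsupp.single (A.P l) (1 : ℤ)) =
      ∑ i ∈ Finset.univ.filter (fun i => Cyc.mk π i ∈ s), Finsupp.single (A.pl i) (1 : ℤ) := by
  have h1 := conorm_sum (S := k') (MS := M') s (fun _ => (1 : ℤ)) A.P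
  simp only [one_smul] at h1
  rw [h1, ← Finset.sum_fiberwise_of_maps_to (s := Finset.univ.filter (fun i => Cyc.mk π i ∈ s)) (t := s)
    (g := Cyc.mk π) (fun i hi => (Finset.mem_filter.1 hi).2)]
  refine Finset.sum_congr rfl fun l hl => ?_
  rw [A.conorm]
  refine Finset.sum_congr ?_ fun _ _ => rfl
  ext i
  simp only [Finset.mem_filter, Finset.mem_univ, true_and]
  exact ⟨fun e => ⟨e ▸ hl, e⟩, fun e => e.2⟩

theorem ga6_conorm_pol (A : TwFam k k' M M' x y Z π) :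
    conorm k' M' A.pol = 2 • ∑ i, Finsupp.single (A.pl i) (1 : ℤ) := by
  rw [TwFam.pol, conorm_nsmul, ga6_conorm_sum]
  congr 1
  refine Finset.sum_congr ?_ fun _ _ => rfl
  ext i
  simp

end Pol

namespace TwBase

variable {p : ℕ} [Fact p.Prime] {L XX : Type} [Field L] [Field XX] [Algebra L XX] (T : TwBase p L XX)

theorem range_P_iff {π : Equiv.Perm T.R.I} (A : TwFam L T.L1 XX T.XX1 T.xt T.yt T.ξ π) (P' : Place L XX) :
    P' ∈ Set.range A.P ↔ T.IsMarked P' :=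
  ga6_range_iff T.twL.wff
    (by rw [WeierstrassCurve.baseChange, WeierstrassCurve.map_Δ]; exact (map_ne_zero _).2 T.hΔt) A P'

theorem range_t_iff {π : Equiv.Perm T.R.I} (A : TwFam T.R.F T.R.S T.EE T.ES T.x0 T.y0 T.R.t π)
    (P' : Place T.R.F T.EE) : P' ∈ Set.range A.P ↔ T.IsMarkedF P' :=
  ga6_range_iff T.twF.wff
    (by rw [WeierstrassCurve.baseChange, WeierstrassCurve.map_Δ]; exact (map_ne_zero _).2 T.R.hΔ) A P'

variable {T}

/-- **reduction of integral sections** (the field `red` of `LevelData`) -/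
theorem red_down (g : T.GV) (rX : ResMap (vX g) T.EE)
    (hrX : ∀ f : XX, vX g f ≤ 1 → algebraMap T.EE T.ES (rX.res f) = g.r1.res (algebraMap XX T.XX1 f))
    {πD : Equiv.Perm T.R.Dn} {πI : Equiv.Perm T.R.I}
    (AD : TwFam L T.L1 XX T.XX1 T.xt T.yt T.d πD) (AD0 : TwFam T.R.F T.R.S T.EE T.ES T.x0 T.y0 T.R.db πD)
    (Aξ : TwFam L T.L1 XX T.XX1 T.xt T.yt T.ξ πI) (At : TwFam T.R.F T.R.S T.EE T.ES T.x0 T.y0 T.R.t πI)
    (j : ℕ) (A : Finset (Cyc πI)) (b : XX)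
    (hb : b ∈ LSp (j • AD.pol - ∑ l ∈ A, Finsupp.single (Aξ.P l) 1)) (hv : vX g b ≤ 1) :
    rX.res b ∈ LSp (j • AD0.pol - ∑ l ∈ A, Finsupp.single (At.P l) 1) := by
  have : IsFF L XX := T.twL.isFF
  have : IsFF T.R.F T.EE := T.twF.isFF
  have hΔ1 : (T.Wt.baseChange T.L1).Δ ≠ 0 := by
    rw [WeierstrassCurve.baseChange, WeierstrassCurve.map_Δ]; exact (map_ne_zero _).2 T.hΔt
  have hΔ0 : (T.R.W0.baseChange T.R.S).Δ ≠ 0 := by
    rw [WeierstrassCurve.baseChange, WeierstrassCurve.map_Δ]; exact (map_ne_zero _).2 T.R.hΔ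
  have hb1 := (mem_LSp_constExt T.twL.po _ b).1 hb
  rw [conorm_sub, conorm_nsmul, ga6_conorm_pol, ga6_conorm_sum] at hb1
  have key := g.red_up T.redCurve1 hΔ1 hΔ0 T.twL.wff T.twF.wff T.d T.R.db T.red_d T.R.db_inj T.d_zero T.d_neg
    T.ξ T.R.t T.red_ξ T.R.t_inj T.R.t_d AD.pl AD.pl_at AD0.pl AD0.pl_at Aξ.pl Aξ.pl_at At.pl At.pl_at j
    (Finset.univ.filter fun i => Cyc.mk πI i ∈ A) (algebraMap XX T.XX1 b) hb1 hv
  rw [← hrX b hv] at key
  rw [mem_LSp_constExt T.twF.po, conorm_sub, conorm_nsmul, ga6_conorm_pol, ga6_conorm_sum]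
  exact key

variable (T)

/-- **thm D** -/
theorem levelData_pf (m : ℕ) (hm : m * (T.R.u + Nat.log p m) < T.N) (K X : Type) [Field K] [Field X] [Algebra K X]
    [Algebra X XX] (Ξ : Set (Place K X))
    (hΞ : ∀ P' : Place L XX, T.IsMarked P' ↔ ∃ P₀ ∈ Ξ, P'.Over P₀) :
    Nonempty (LevelData p m K X Ξ L XX) := by
  obtain ⟨g⟩ := T.nonempty_GV
  obtain ⟨rX, hrX⟩ := exists_desc g
  obtain ⟨πD, hD, hD0⟩ := T.toFldBase.exists_perm_d
  obtain ⟨πI, hI, hI0⟩ := T.toFldBase.exists_perm_ξ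
  obtain ⟨AD⟩ := T.twL.nonempty_twFam T.hΔt T.d T.toFldBase.d_inj πD hD
  obtain ⟨AD0⟩ := T.twF.nonempty_twFam T.R.hΔ T.R.db T.R.db_inj πD hD0
  obtain ⟨Aξ⟩ := T.twL.nonempty_twFam T.hΔt T.ξ T.toFldBase.ξ_inj πI hI
  obtain ⟨At⟩ := T.twF.nonempty_twFam T.R.hΔ T.R.t T.R.t_inj πI hI0
  have hcard : 0 < Fintype.card T.R.Dn := by
    obtain ⟨j, -⟩ := T.d_zero
    exact Fintype.card_pos_iff.2 ⟨j⟩
  exact ⟨{
    F := T.R.F, EE := T.EE
    ffX := T.twL.isFF
    vL := T.vL, vL_surj := T.vL_surj, sph := T.sph, rL := T.rL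
    vX := vX g, vX_ext := vX_ext g, rX := rX, rX_ext := rX_ext g rX hrX
    chiX := T.twL.chi_eq_zero T.hΔt
    DX := AD.pol, DF := AD0.pol
    DX_nonneg := AD.pol_nonneg, DF_nonneg := AD0.pol_nonneg
    deg_pos := by rw [AD.pol_deg]; positivity
    deg_eq := by rw [AD.pol_deg, AD0.pol_deg]
    Lam := Cyc πI
    neLam := ⟨Cyc.mk πI (Classical.arbitrary _)⟩
    P := Aξ.P, t := At.P, P_inj := Aξ.P_inj, t_inj := At.P_inj
    P_iff := fun P' => (T.range_P_iff Aξ P').trans (hΞ P')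
    deg_P := fun l => by rw [Aξ.deg, At.deg]
    DX_P := fun l => AD.pol_eq_zero fun l' => TwFam.P_ne T.twL Aξ AD T.toFldBase.ξ_ne_d l l'
    DF_t := fun l => AD0.pol_eq_zero fun l' => TwFam.P_ne T.twF At AD0 T.R.t_d l l'
    red := fun j A b hb hv => red_down g rX hrX AD AD0 Aξ At j A b hb hv
    insep := T.insepGenus_pf m hm At.P At.P_inj (T.range_t_iff At) }⟩

end TwBase

end Claimed.Agent.R280
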