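import Claimed.Agent.R280.Gauss.ValRes

/-!
# Row 280, Gauss package GA1 `Val`: the Gauss valuation of a Weierstrass function field with good reduction (second level)

`K` valued (`v`, residue map `r` onto `k`), `Wt/K` with integral coefficients reducing to `W0/k`, `M = K(x,y)`, `M0 = k(x0,y0)`.
`GaussVal`: a valuation `v1` of `M` with `v1 (A(x) + B(x) y) = max |A| |B|` (Gauss norms) and a residue map `r1` ONTO `M0` with `A(x) + B(x) y ↦ Ā(x0) + B̄(x0) y0`.

Leaves:  GA1a, GA1b = Gauss/GNorm.lean;  GA1c `exists_gauss_valuation` (~500);  GA1d `exists_gauss_resMap` (~600) + the five small consequences.   `exists_gaussVal` is PROVED.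
PLAN GA1c.  For `f : M` choose `A B C`, `C ≠ 0`, `f · C(x) = A(x) + B(x) y` (`IsWFF.repr`) and put `v1 f := pN A B / gNorm C`.  Independence of the choice: if also `f C' = A' + B' y` then `(A + By) C' = (A' + B'y) C`, so
`A C' = A' C`, `B C' = B' C` (`repr_unique`), `gNorm_mul`.  `map_mul`: `pN_mul`, `mul_repr`.  `map_add`: common denominator `C C'`, `gNorm_add_le`.  `map_one`, `map_zero`.
PLAN GA1d.  For `v1 f ≤ 1`, `f C = A + B y`: scale so that `gNorm C = 1`; then `pN A B ≤ 1`; `ρ f := (Ā(x0) + B̄(x0) y0) / C̄(x0)`, `C̄ ≠ 0` (`redPoly_eq_zero_iff`), `C̄(x0) ≠ 0` (`x0` transcendental).  Independent of the choice, ring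
homomorphism on `O_{v1}` (`redPoly_add/mul`, `mul_repr` for `M0`), kernel `{v1 < 1}` (`repr_unique` for `M0`), onto (`IsWFF.repr` for `M0`, `redPoly_surj`).
Owner of the statements: helper66.
-/

set_option autoImplicit false

namespace Claimed.Agent.R280

open WithZero WeierstrassCurve Polynomial
open scoped Classical

/-- the Gauss valuation and its residue map -/
structure GaussVal {K k : Type} [Field K] [Field k] (v : Valuation K ℚᵐ⁰) (r : ResMap v k) (M M0 : Type) [Field M]
    [Field M0] [Algebra K M] [Algebra k M0] (x y : M) (x0 y0 : M0) where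
  v1 : Valuation M ℚᵐ⁰
  r1 : ResMap v1 M0
  v_poly : ∀ A B : K[X], v1 (aeval x A + aeval x B * y) = max (gNorm v A) (gNorm v B)
  res_poly : ∀ A B : K[X], gNorm v A ≤ 1 → gNorm v B ≤ 1 →
    r1.res (aeval x A + aeval x B * y) = aeval x0 (redPoly r A) + aeval x0 (redPoly r B) * y0

section Thms

variable {K k : Type} [Field K] [Field k] {v : Valuation K ℚᵐ⁰} {r : ResMap v k} {M M0 : Type} [Field M] [Field M0]
  [Algebra K M] [Algebra k M0] {x y : M} {x0 y0 : M0}

/-- `(A, B, C)` represents `f`: `f C(x) = A(x) + B(x) y`, `C ≠ 0`. -/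
def IsGRep (x y : M) (f : M) (A B C : K[X]) : Prop :=
  C ≠ 0 ∧ f * aeval x C = aeval x A + aeval x B * y

theorem IsGRep.cross {Wt : WeierstrassCurve K} (h : IsWFF Wt M x y) {f : M} {A B C A' B' C' : K[X]}
    (h1 : IsGRep x y f A B C) (h2 : IsGRep x y f A' B' C') : A * C' = A' * C ∧ B * C' = B' * C := by
  have e : aeval x (A * C' - A' * C) + aeval x (B * C' - B' * C) * y = 0 := by
    simp only [map_sub, map_mul]
    linear_combination (-aeval x C') * h1.2 + (aeval x C) * h2.2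
  obtain ⟨e1, e2⟩ := h.repr_unique e
  exact ⟨sub_eq_zero.1 e1, sub_eq_zero.1 e2⟩

theorem IsGRep.add {f f' : M} {A B C A' B' C' : K[X]} (h1 : IsGRep x y f A B C)
    (h2 : IsGRep x y f' A' B' C') :
    IsGRep x y (f + f') (A * C' + A' * C) (B * C' + B' * C) (C * C') := by
  refine ⟨mul_ne_zero h1.1 h2.1, ?_⟩
  simp only [map_add, map_mul]
  linear_combination (aeval x C') * h1.2 + (aeval x C) * h2.2

theorem IsGRep.mul {Wt : WeierstrassCurve K} (h : IsWFF Wt M x y) {f f' : M} {A B C A' B' C' : K[X]}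
    (h1 : IsGRep x y f A B C) (h2 : IsGRep x y f' A' B' C') :
    IsGRep x y (f * f') (wA Wt A B A' B') (wB Wt A B A' B') (C * C') := by
  refine ⟨mul_ne_zero h1.1 h2.1, ?_⟩
  rw [← h.mul_repr, ← h1.2, ← h2.2, map_mul]
  ring

theorem IsGRep.poly (A B : K[X]) : IsGRep x y (aeval x A + aeval x B * y) A B 1 :=
  ⟨one_ne_zero, by rw [map_one, mul_one]⟩

/-- the value `max |A| |B| / |C|` of a representation. -/
noncomputable def gRepVal (v : Valuation K ℚᵐ⁰) (A B C : K[X]) : ℚᵐ⁰ := pN v A B / gNorm v C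

theorem ga1c_gNorm_ne_zero {C : K[X]} (hC : C ≠ 0) : gNorm v C ≠ 0 :=
  fun h => hC ((gNorm_eq_zero_iff v C).1 h)

theorem ga1c_pN_mul_right (r : ResMap v k) (A B C : K[X]) :
    pN v (A * C) (B * C) = pN v A B * gNorm v C := by
  unfold pN
  rw [gNorm_mul r, gNorm_mul r, max_mul_mul_right]

theorem gRepVal_eq (r : ResMap v k) {Wt : WeierstrassCurve K} (h : IsWFF Wt M x y) {f : M}
    {A B C A' B' C' : K[X]} (h1 : IsGRep x y f A B C) (h2 : IsGRep x y f A' B' C') :
    gRepVal v A B C = gRepVal v A' B' C' := by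
  obtain ⟨e1, e2⟩ := h1.cross h h2
  have e3 : pN v A B * gNorm v C' = pN v A' B' * gNorm v C := by
    rw [← ga1c_pN_mul_right r, ← ga1c_pN_mul_right r, e1, e2]
  unfold gRepVal
  rw [div_eq_div_iff (ga1c_gNorm_ne_zero h1.1) (ga1c_gNorm_ne_zero h2.1)]
  exact e3

theorem ga1c_pN_add_le (v : Valuation K ℚᵐ⁰) (A B A' B' : K[X]) :
    pN v (A + A') (B + B') ≤ max (pN v A B) (pN v A' B') := by
  refine max_le ?_ ?_
  · exact (gNorm_add_le v A A').trans
      (max_le_max (gNorm_le_pN_left v A B) (gNorm_le_pN_left v A' B'))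
  · exact (gNorm_add_le v B B').trans
      (max_le_max (gNorm_le_pN_right v A B) (gNorm_le_pN_right v A' B'))

/-- GA1c -/
theorem exists_gauss_valuation {Wt : WeierstrassCurve K} {W0 : WeierstrassCurve k} (hW : RedCurve v r Wt W0)
    (h : IsWFF Wt M x y) (h0 : IsWFF W0 M0 x0 y0) : ∃ v1 : Valuation M ℚᵐ⁰,
      ∀ A B : K[X], v1 (aeval x A + aeval x B * y) = max (gNorm v A) (gNorm v B) := by
  have hex : ∀ f : M, ∃ T : K[X] × K[X] × K[X], IsGRep x y f T.1 T.2.1 T.2.2 := by
    intro f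
    obtain ⟨A, B, C, hC, he⟩ := h.repr f
    exact ⟨(A, B, C), hC, he⟩
  choose T hT using hex
  let w : M → ℚᵐ⁰ := fun f => gRepVal v (T f).1 (T f).2.1 (T f).2.2
  have hw : ∀ {f : M} {A B C : K[X]}, IsGRep x y f A B C → w f = gRepVal v A B C :=
    fun {f A B C} hr => gRepVal_eq r h (hT f) hr
  have hpoly : ∀ A B : K[X], w (aeval x A + aeval x B * y) = max (gNorm v A) (gNorm v B) := by
    intro A B
    rw [hw (IsGRep.poly A B)]
    unfold gRepVal
    rw [ga1b_gNorm_one, div_one]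
    rfl
  have h_zero : w 0 = 0 := by
    have := hpoly 0 0
    rw [map_zero, zero_mul, add_zero, ga1b_gNorm_zero, max_self] at this
    exact this
  have h_one : w 1 = 1 := by
    have := hpoly 1 0
    rw [map_zero, zero_mul, add_zero, map_one, ga1b_gNorm_zero, ga1b_gNorm_one] at this
    rw [this]
    exact max_eq_left zero_le
  have h_mul : ∀ f f' : M, w (f * f') = w f * w f' := by
    intro f f'
    rw [hw ((hT f).mul h (hT f'))]
    show gRepVal v _ _ _ = gRepVal v _ _ _ * gRepVal v _ _ _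
    unfold gRepVal
    rw [pN_mul hW h0, gNorm_mul r, mul_div_mul_comm]
  have h_add : ∀ f f' : M, w (f + f') ≤ max (w f) (w f') := by
    intro f f'
    rw [hw ((hT f).add (hT f'))]
    show gRepVal v _ _ _ ≤ max (gRepVal v _ _ _) (gRepVal v _ _ _)
    set A := (T f).1
    set B := (T f).2.1
    set C := (T f).2.2
    set A' := (T f').1
    set B' := (T f').2.1
    set C' := (T f').2.2
    have hC : gNorm v C ≠ 0 := ga1c_gNorm_ne_zero (hT f).1
    have hC' : gNorm v C' ≠ 0 := ga1c_gNorm_ne_zero (hT f').1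
    unfold gRepVal
    have e1 : pN v A B / gNorm v C = pN v (A * C') (B * C') / gNorm v (C * C') := by
      rw [ga1c_pN_mul_right r, gNorm_mul r, mul_div_mul_right _ _ hC']
    have e2 : pN v A' B' / gNorm v C' = pN v (A' * C) (B' * C) / gNorm v (C * C') := by
      rw [ga1c_pN_mul_right r, gNorm_mul r, mul_comm (gNorm v C), mul_div_mul_right _ _ hC]
    rw [e1, e2, div_eq_mul_inv, div_eq_mul_inv, div_eq_mul_inv, max_mul_mul_right]
    exact mul_le_mul_left (ga1c_pN_add_le v _ _ _ _) _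
  exact ⟨{ toFun := w, map_zero' := h_zero, map_one' := h_one, map_mul' := h_mul,
           map_add_le_max' := h_add }, hpoly⟩

/-- GA1d -/
theorem exists_gauss_resMap {Wt : WeierstrassCurve K} {W0 : WeierstrassCurve k} (hW : RedCurve v r Wt W0)
    (h : IsWFF Wt M x y) (h0 : IsWFF W0 M0 x0 y0) (v1 : Valuation M ℚᵐ⁰)
    (hv1 : ∀ A B : K[X], v1 (aeval x A + aeval x B * y) = max (gNorm v A) (gNorm v B)) :
    ∃ r1 : ResMap v1 M0, ∀ A B : K[X], gNorm v A ≤ 1 → gNorm v B ≤ 1 →
      r1.res (aeval x A + aeval x B * y) = aeval x0 (redPoly r A) + aeval x0 (redPoly r B) * y0 := by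
  have hex : ∀ f : v1.valuationSubring, ∃ c, ga1dRel r x y x0 y0 (f : M) c := fun f =>
    ga1d_rel_exists h h0 hv1 ((Valuation.mem_valuationSubring_iff v1 _).1 f.2)
  choose ρ hρ using hex
  let φ : v1.valuationSubring →+* M0 :=
    { toFun := ρ
      map_one' := ga1d_rel_unique h h0 (hρ 1) ga1d_rel_one
      map_mul' := fun f g => ga1d_rel_unique h h0 (hρ (f * g)) (ga1d_rel_mul hW h h0 (hρ f) (hρ g))
      map_zero' := ga1d_rel_unique h h0 (hρ 0) ga1d_rel_zero
      map_add' := fun f g => ga1d_rel_unique h h0 (hρ (f + g)) (ga1d_rel_add (hρ f) (hρ g)) }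
  refine ⟨⟨φ, ?_, ?_⟩, ?_⟩
  · intro c
    obtain ⟨f, hf, hfc⟩ := ga1d_rel_surj (r := r) h h0 hv1 c
    exact ⟨⟨f, (Valuation.mem_valuationSubring_iff v1 f).2 hf⟩, ga1d_rel_unique h h0 (hρ _) hfc⟩
  · intro f
    exact ga1d_rel_val h0 hv1 (hρ f)
  · intro A B hA hB
    have hle : v1 (aeval x A + aeval x B * y) ≤ 1 := by
      rw [hv1]
      exact max_le hA hB
    rw [ResMap.res, dif_pos hle]
    exact ga1d_rel_unique h h0 (hρ _) (ga1d_rel_poly hA hB)

theorem exists_gaussVal {Wt : WeierstrassCurve K} {W0 : WeierstrassCurve k} (hW : RedCurve v r Wt W0)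
    (h : IsWFF Wt M x y) (h0 : IsWFF W0 M0 x0 y0) : Nonempty (GaussVal v r M M0 x y x0 y0) := by
  obtain ⟨v1, hv1⟩ := exists_gauss_valuation hW h h0
  obtain ⟨r1, hr1⟩ := exists_gauss_resMap hW h h0 v1 hv1
  exact ⟨⟨v1, r1, hv1, hr1⟩⟩

theorem GaussVal.ext (g : GaussVal v r M M0 x y x0 y0) : ValExt g.v1 v := by
  intro a
  have := g.v_poly (C a) 0
  rwa [aeval_C, map_zero, zero_mul, add_zero, gNorm_C, ga1d_gNorm_zero, max_eq_left zero_le] at this

theorem GaussVal.rext (g : GaussVal v r M M0 x y x0 y0) : ResExt g.r1 r := by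
  intro a ha
  have := g.res_poly (C a) 0 (by rwa [gNorm_C]) (by rw [ga1d_gNorm_zero]; exact zero_le)
  rwa [aeval_C, map_zero, zero_mul, add_zero, ga1d_redPoly_C, ga1d_redPoly_zero, aeval_C, map_zero,
    zero_mul, add_zero] at this

theorem GaussVal.res_x (g : GaussVal v r M M0 x y x0 y0) : g.v1 x = 1 ∧ g.r1.res x = x0 := by
  constructor
  · have := g.v_poly X 0
    rwa [aeval_X, map_zero, zero_mul, add_zero, ga1d_gNorm_X, ga1d_gNorm_zero,
      max_eq_left zero_le] at this
  · have := g.res_poly X 0 ga1d_gNorm_X.le (by rw [ga1d_gNorm_zero]; exact zero_le)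
    rwa [aeval_X, map_zero, zero_mul, add_zero, ga1d_redPoly_X, ga1d_redPoly_zero, aeval_X, map_zero,
      zero_mul, add_zero] at this

theorem GaussVal.res_y (g : GaussVal v r M M0 x y x0 y0) : g.v1 y = 1 ∧ g.r1.res y = y0 := by
  constructor
  · have := g.v_poly 0 1
    rwa [map_one, map_zero, one_mul, zero_add, ga1d_gNorm_one, ga1d_gNorm_zero,
      max_eq_right zero_le] at this
  · have := g.res_poly 0 1 (by rw [ga1d_gNorm_zero]; exact zero_le) ga1d_gNorm_one.le
    rwa [map_one, map_zero, one_mul, zero_add, ga1d_redPoly_one, ga1d_redPoly_zero, map_one, map_zero,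
      one_mul, zero_add] at this

end Thms

end Claimed.Agent.R280
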