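import Claimed.Agent.R280.Gauss.GNorm

/-!
# Row 280, Gauss package GA1d, helper file: the graph `ga1dRel` of the residue map of the Gauss valuation

`ga1dRel r x y x0 y0 f c` : there are `A B C`, `|A|,|B| ≤ 1`, `|C| = 1`, `f C(x) = A(x) + B(x) y`, `c C̄(x0) = Ā(x0) + B̄(x0) y0`.
It is a functional relation on `O_{v1}` (`ga1d_rel_exists`, `ga1d_rel_unique`), closed under `0, 1, +, *`, onto, with `c = 0 ↔ v1 f < 1`.
(helper295)
-/

set_option autoImplicit false

namespace Claimed.Agent.R280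

open WithZero WeierstrassCurve Polynomial
open scoped Classical

section GA1dPoly

variable {K k : Type} [Field K] [Field k] {v : Valuation K ℚᵐ⁰} (r : ResMap v k)

theorem ga1d_gNorm_zero : gNorm v (0 : K[X]) = 0 := (gNorm_eq_zero_iff v 0).2 rfl

theorem ga1d_gNorm_one : gNorm v (1 : K[X]) = 1 := by
  have := gNorm_C v (1 : K)
  rwa [map_one, map_one] at this

theorem ga1d_gNorm_neg (A : K[X]) : gNorm v (-A) = gNorm v A := by
  have := gNorm_C_mul v (-1 : K) A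
  rwa [map_neg, map_one, neg_one_mul, Valuation.map_neg, map_one, one_mul] at this

theorem ga1d_gNorm_sub_le (A B : K[X]) : gNorm v (A - B) ≤ max (gNorm v A) (gNorm v B) := by
  rw [sub_eq_add_neg, ← ga1d_gNorm_neg B]
  exact gNorm_add_le v A (-B)

theorem ga1d_gNorm_X : gNorm v (X : K[X]) = 1 := by
  refine gNorm_of_monic v monic_X fun n => ?_
  rw [coeff_X]
  split_ifs
  · rw [map_one]
  · rw [map_zero]; exact zero_le

theorem ga1d_redPoly_zero : redPoly r (0 : K[X]) = 0 := by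
  ext n
  rw [coeff_redPoly, coeff_zero, coeff_zero, r.res_zero]

theorem ga1d_redPoly_C (a : K) : redPoly r (C a) = C (r.res a) := by
  ext n
  rw [coeff_redPoly, coeff_C, coeff_C]
  split_ifs
  · rfl
  · exact r.res_zero

theorem ga1d_redPoly_one : redPoly r (1 : K[X]) = 1 := by
  have := ga1d_redPoly_C r (1 : K)
  rwa [map_one, r.res_one, map_one] at this

theorem ga1d_redPoly_X : redPoly r (X : K[X]) = X := by
  ext n
  rw [coeff_redPoly, coeff_X, coeff_X]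
  split_ifs
  · exact r.res_one
  · exact r.res_zero

theorem ga1d_redPoly_neg {A : K[X]} (hA : gNorm v A ≤ 1) : redPoly r (-A) = - redPoly r A := by
  ext n
  rw [coeff_redPoly, coeff_neg, coeff_neg, coeff_redPoly,
    r.res_neg ((coeff_le_gNorm v A n).trans hA)]

theorem ga1d_redPoly_sub {A B : K[X]} (hA : gNorm v A ≤ 1) (hB : gNorm v B ≤ 1) :
    redPoly r (A - B) = redPoly r A - redPoly r B := by
  rw [sub_eq_add_neg, redPoly_add r hA (by rwa [ga1d_gNorm_neg]), ga1d_redPoly_neg r hB,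
    ← sub_eq_add_neg]

include r in
theorem ga1d_gNorm_mul_le {A B : K[X]} (hA : gNorm v A ≤ 1) (hB : gNorm v B ≤ 1) :
    gNorm v (A * B) ≤ 1 := by
  rw [gNorm_mul r]
  exact mul_le_one' hA hB

theorem ga1d_redPoly_ne_zero {C : K[X]} (hC : gNorm v C = 1) : redPoly r C ≠ 0 := by
  intro h
  have := (redPoly_eq_zero_iff r hC.le).1 h
  rw [hC] at this
  exact lt_irrefl _ this

end GA1dPoly

section GA1dRel

variable {K k : Type} [Field K] [Field k] {v : Valuation K ℚᵐ⁰} {r : ResMap v k} {M M0 : Type} [Field M] [Field M0]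
  [Algebra K M] [Algebra k M0] {x y : M} {x0 y0 : M0}

/-- the graph of the residue map of the Gauss valuation -/
def ga1dRel (r : ResMap v k) (x y : M) (x0 y0 : M0) (f : M) (c : M0) : Prop :=
  ∃ A B C : K[X], gNorm v A ≤ 1 ∧ gNorm v B ≤ 1 ∧ gNorm v C = 1 ∧
    f * aeval x C = aeval x A + aeval x B * y ∧
    c * aeval x0 (redPoly r C) = aeval x0 (redPoly r A) + aeval x0 (redPoly r B) * y0

theorem ga1d_v1_aeval {v1 : Valuation M ℚᵐ⁰}
    (hv1 : ∀ A B : K[X], v1 (aeval x A + aeval x B * y) = max (gNorm v A) (gNorm v B)) (C : K[X]) :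
    v1 (aeval x C) = gNorm v C := by
  have := hv1 C 0
  rwa [map_zero, zero_mul, add_zero, ga1d_gNorm_zero, max_eq_left zero_le] at this

theorem ga1d_rel_poly {A B : K[X]} (hA : gNorm v A ≤ 1) (hB : gNorm v B ≤ 1) :
    ga1dRel r x y x0 y0 (aeval x A + aeval x B * y)
      (aeval x0 (redPoly r A) + aeval x0 (redPoly r B) * y0) :=
  ⟨A, B, 1, hA, hB, ga1d_gNorm_one, by rw [map_one, mul_one],
    by rw [ga1d_redPoly_one, map_one, mul_one]⟩

theorem ga1d_rel_zero : ga1dRel r x y x0 y0 0 0 := by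
  have := ga1d_rel_poly (r := r) (x := x) (y := y) (x0 := x0) (y0 := y0) (A := 0) (B := 0)
    (by rw [ga1d_gNorm_zero]; exact zero_le) (by rw [ga1d_gNorm_zero]; exact zero_le)
  simpa [ga1d_redPoly_zero] using this

theorem ga1d_rel_one : ga1dRel r x y x0 y0 1 1 := by
  have := ga1d_rel_poly (r := r) (x := x) (y := y) (x0 := x0) (y0 := y0) (A := 1) (B := 0)
    ga1d_gNorm_one.le (by rw [ga1d_gNorm_zero]; exact zero_le)
  simpa [ga1d_redPoly_zero, ga1d_redPoly_one] using this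

variable {Wt : WeierstrassCurve K} {W0 : WeierstrassCurve k}

theorem ga1d_rel_exists (h : IsWFF Wt M x y) (h0 : IsWFF W0 M0 x0 y0) {v1 : Valuation M ℚᵐ⁰}
    (hv1 : ∀ A B : K[X], v1 (aeval x A + aeval x B * y) = max (gNorm v A) (gNorm v B)) {f : M}
    (hf : v1 f ≤ 1) : ∃ c, ga1dRel r x y x0 y0 f c := by
  obtain ⟨A, B, C, hC, hfC⟩ := h.repr f
  obtain ⟨n, hn, hn0⟩ := exists_coeff_eq_gNorm v hC
  have hg0 : gNorm v C ≠ 0 := fun h => hC ((gNorm_eq_zero_iff v C).1 h)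
  have hC1 : gNorm v (Polynomial.C (C.coeff n)⁻¹ * C) = 1 := by
    rw [gNorm_C_mul, map_inv₀, hn]
    exact inv_mul_cancel₀ hg0
  have e : f * aeval x (Polynomial.C (C.coeff n)⁻¹ * C) =
      aeval x (Polynomial.C (C.coeff n)⁻¹ * A) + aeval x (Polynomial.C (C.coeff n)⁻¹ * B) * y := by
    simp only [map_mul, aeval_C]
    linear_combination (algebraMap K M (C.coeff n)⁻¹) * hfC
  have hmax : max (gNorm v (Polynomial.C (C.coeff n)⁻¹ * A))
      (gNorm v (Polynomial.C (C.coeff n)⁻¹ * B)) ≤ 1 := by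
    rw [← hv1, ← e, map_mul, ga1d_v1_aeval hv1, hC1, mul_one]
    exact hf
  have hne : aeval x0 (redPoly r (Polynomial.C (C.coeff n)⁻¹ * C)) ≠ 0 :=
    h0.ell1b_aeval_ne (ga1d_redPoly_ne_zero r hC1)
  exact ⟨_, _, _, _, (le_max_left _ _).trans hmax, (le_max_right _ _).trans hmax, hC1, e,
    div_mul_cancel₀ _ hne⟩

theorem ga1d_rel_unique (h : IsWFF Wt M x y) (h0 : IsWFF W0 M0 x0 y0) {f : M} {c c' : M0}
    (hc : ga1dRel r x y x0 y0 f c) (hc' : ga1dRel r x y x0 y0 f c') : c = c' := by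
  obtain ⟨A, B, C, hA, hB, hC, e, e0⟩ := hc
  obtain ⟨A', B', C', hA', hB', hC', e', e0'⟩ := hc'
  have key : aeval x (A * C' - A' * C) + aeval x (B * C' - B' * C) * y = 0 := by
    simp only [map_sub, map_mul]
    linear_combination (aeval x C) * e' - (aeval x C') * e
  obtain ⟨k1, k2⟩ := h.repr_unique key
  have k1' : redPoly r A * redPoly r C' = redPoly r A' * redPoly r C := by
    rw [← redPoly_mul r hA hC'.le, ← redPoly_mul r hA' hC.le, sub_eq_zero.1 k1]
  have k2' : redPoly r B * redPoly r C' = redPoly r B' * redPoly r C := by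
    rw [← redPoly_mul r hB hC'.le, ← redPoly_mul r hB' hC.le, sub_eq_zero.1 k2]
  have hne : aeval x0 (redPoly r C) ≠ 0 := h0.ell1b_aeval_ne (ga1d_redPoly_ne_zero r hC)
  have hne' : aeval x0 (redPoly r C') ≠ 0 := h0.ell1b_aeval_ne (ga1d_redPoly_ne_zero r hC')
  have k1'' := congrArg (aeval x0) k1'
  have k2'' := congrArg (aeval x0) k2'
  simp only [map_mul] at k1'' k2''
  apply mul_right_cancel₀ (mul_ne_zero hne hne')
  linear_combination (aeval x0 (redPoly r C')) * e0 - (aeval x0 (redPoly r C)) * e0' + k1'' + y0 * k2''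

theorem ga1d_rel_add {f g : M} {c d : M0}
    (hc : ga1dRel r x y x0 y0 f c) (hd : ga1dRel r x y x0 y0 g d) :
    ga1dRel r x y x0 y0 (f + g) (c + d) := by
  obtain ⟨A, B, C, hA, hB, hC, e, e0⟩ := hc
  obtain ⟨A', B', C', hA', hB', hC', e', e0'⟩ := hd
  have n1 := ga1d_gNorm_mul_le r hA hC'.le
  have n2 := ga1d_gNorm_mul_le r hA' hC.le
  have n3 := ga1d_gNorm_mul_le r hB hC'.le
  have n4 := ga1d_gNorm_mul_le r hB' hC.le
  refine ⟨A * C' + A' * C, B * C' + B' * C, C * C', (gNorm_add_le v _ _).trans (max_le n1 n2),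
    (gNorm_add_le v _ _).trans (max_le n3 n4), by rw [gNorm_mul r, hC, hC', one_mul], ?_, ?_⟩
  · simp only [map_add, map_mul]
    linear_combination (aeval x C') * e + (aeval x C) * e'
  · rw [redPoly_add r n1 n2, redPoly_add r n3 n4, redPoly_mul r hA hC'.le, redPoly_mul r hA' hC.le,
      redPoly_mul r hB hC'.le, redPoly_mul r hB' hC.le, redPoly_mul r hC.le hC'.le]
    simp only [map_add, map_mul]
    linear_combination (aeval x0 (redPoly r C')) * e0 + (aeval x0 (redPoly r C)) * e0'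

theorem ga1d_red_wA (hW : RedCurve v r Wt W0) {A B A' B' : K[X]} (hA : gNorm v A ≤ 1)
    (hB : gNorm v B ≤ 1) (hA' : gNorm v A' ≤ 1) (hB' : gNorm v B' ≤ 1) :
    gNorm v (wA Wt A B A' B') ≤ 1 ∧ redPoly r (wA Wt A B A' B') =
      wA W0 (redPoly r A) (redPoly r B) (redPoly r A') (redPoly r B') := by
  obtain ⟨c1, c2⟩ := redPoly_wCub hW
  have n1 := ga1d_gNorm_mul_le r hA hA'
  have n2 := ga1d_gNorm_mul_le r hB hB'
  have n3 := ga1d_gNorm_mul_le r n2 c1
  unfold wA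
  refine ⟨(gNorm_add_le v _ _).trans (max_le n1 n3), ?_⟩
  rw [redPoly_add r n1 n3, redPoly_mul r hA hA', redPoly_mul r n2 c1, redPoly_mul r hB hB', c2]

theorem ga1d_red_wB (hW : RedCurve v r Wt W0) {A B A' B' : K[X]} (hA : gNorm v A ≤ 1)
    (hB : gNorm v B ≤ 1) (hA' : gNorm v A' ≤ 1) (hB' : gNorm v B' ≤ 1) :
    gNorm v (wB Wt A B A' B') ≤ 1 ∧ redPoly r (wB Wt A B A' B') =
      wB W0 (redPoly r A) (redPoly r B) (redPoly r A') (redPoly r B') := by
  obtain ⟨c1, c2⟩ := redPoly_wLin hW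
  have n1 := ga1d_gNorm_mul_le r hA hB'
  have n2 := ga1d_gNorm_mul_le r hA' hB
  have n3 := ga1d_gNorm_mul_le r hB hB'
  have n4 := ga1d_gNorm_mul_le r n3 c1
  have n5 : gNorm v (A * B' + A' * B) ≤ 1 := (gNorm_add_le v _ _).trans (max_le n1 n2)
  unfold wB
  refine ⟨(ga1d_gNorm_sub_le _ _).trans (max_le n5 n4), ?_⟩
  rw [ga1d_redPoly_sub r n5 n4, redPoly_add r n1 n2, redPoly_mul r hA hB', redPoly_mul r hA' hB,
    redPoly_mul r n3 c1, redPoly_mul r hB hB', c2]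

theorem ga1d_rel_mul (hW : RedCurve v r Wt W0) (h : IsWFF Wt M x y) (h0 : IsWFF W0 M0 x0 y0)
    {f g : M} {c d : M0} (hc : ga1dRel r x y x0 y0 f c) (hd : ga1dRel r x y x0 y0 g d) :
    ga1dRel r x y x0 y0 (f * g) (c * d) := by
  obtain ⟨A, B, C, hA, hB, hC, e, e0⟩ := hc
  obtain ⟨A', B', C', hA', hB', hC', e', e0'⟩ := hd
  obtain ⟨a1, a2⟩ := ga1d_red_wA hW hA hB hA' hB'
  obtain ⟨b1, b2⟩ := ga1d_red_wB hW hA hB hA' hB'
  refine ⟨wA Wt A B A' B', wB Wt A B A' B', C * C', a1, b1, by rw [gNorm_mul r, hC, hC', one_mul],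
    ?_, ?_⟩
  · rw [← h.mul_repr, ← e, ← e', map_mul]
    ring
  · rw [a2, b2, ← h0.mul_repr, ← e0, ← e0', redPoly_mul r hC.le hC'.le, map_mul]
    ring

theorem ga1d_rel_val {v1 : Valuation M ℚᵐ⁰} (h0 : IsWFF W0 M0 x0 y0)
    (hv1 : ∀ A B : K[X], v1 (aeval x A + aeval x B * y) = max (gNorm v A) (gNorm v B))
    {f : M} {c : M0} (hc : ga1dRel r x y x0 y0 f c) : c = 0 ↔ v1 f < 1 := by
  obtain ⟨A, B, C, hA, hB, hC, e, e0⟩ := hc
  have hvf : v1 f = max (gNorm v A) (gNorm v B) := by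
    rw [← hv1, ← e, map_mul, ga1d_v1_aeval hv1, hC, mul_one]
  have hne : aeval x0 (redPoly r C) ≠ 0 := h0.ell1b_aeval_ne (ga1d_redPoly_ne_zero r hC)
  rw [hvf, max_lt_iff, ← redPoly_eq_zero_iff r hA, ← redPoly_eq_zero_iff r hB]
  constructor
  · rintro rfl
    rw [zero_mul] at e0
    exact h0.repr_unique e0.symm
  · rintro ⟨h1, h2⟩
    rw [h1, h2, map_zero, zero_mul, add_zero] at e0
    exact (mul_eq_zero.1 e0).resolve_right hne

theorem ga1d_rel_surj (h : IsWFF Wt M x y) (h0 : IsWFF W0 M0 x0 y0) {v1 : Valuation M ℚᵐ⁰}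
    (hv1 : ∀ A B : K[X], v1 (aeval x A + aeval x B * y) = max (gNorm v A) (gNorm v B)) (c : M0) :
    ∃ f : M, v1 f ≤ 1 ∧ ga1dRel r x y x0 y0 f c := by
  obtain ⟨A0, B0, C0, hC0, e0⟩ := h0.repr c
  obtain ⟨A, hA, rA, -⟩ := redPoly_surj r A0
  obtain ⟨B, hB, rB, -⟩ := redPoly_surj r B0
  obtain ⟨C, hC, rC, -⟩ := redPoly_surj r C0
  have hC1 : gNorm v C = 1 := by
    refine le_antisymm hC (not_lt.1 fun hlt => hC0 ?_)
    rw [← rC]
    exact (redPoly_eq_zero_iff r hC).2 hlt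
  have hCne : C ≠ 0 := by
    rintro rfl
    rw [ga1d_gNorm_zero] at hC1
    exact zero_ne_one hC1
  have hne : aeval x C ≠ 0 := h.ell1b_aeval_ne hCne
  refine ⟨(aeval x A + aeval x B * y) / aeval x C, ?_, A, B, C, hA, hB, hC1,
    div_mul_cancel₀ _ hne, by rw [rA, rB, rC]; exact e0⟩
  rw [map_div₀, hv1, ga1d_v1_aeval hv1, hC1, div_one]
  exact max_le hA hB

end GA1dRel

end Claimed.Agent.R280
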